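import Vale.Agent.P046.Full.Two.DriftW

/-!
P046, phase two: the potential of the neighbour sums in mean.
-/

namespace Vale.Agent.P046.Full.Two

open Finset
open Vale.Agent.P046

variable {n : ℕ}

/-- The exponent of the weight of `potW`. -/
noncomputable def aW : ℝ := 11 / 20

lemma gen_smul_sub (f : Gr n → ℝ) (c k : ℝ) (H : Gr n) :
    gen (rstep (n := n)) (fun K => c * f K - k) H = c * gen (rstep (n := n)) f H := by
  simp only [gen_rstep, mul_sum]
  exact sum_congr rfl fun E _ => by ring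

lemma ev_potW_le {μ : Gr n → ℝ} (hμ : ∀ G, 0 ≤ μ G) (hμh : 1 / 2 ≤ ∑ G, μ G)
    (hμ1 : ∑ G, μ G ≤ 1) {L D₁ M A0 B0 Q0 : ℝ} (hD : 10 ^ 4 ≤ D₁) (hDL : D₁ ≤ L) (hM : 1 ≤ M)
    (hA0 : 0 ≤ A0) (hB0 : 0 ≤ B0) (hQ0 : 0 ≤ Q0)
    (hdeg : ∀ G, μ G ≠ 0 → ∀ g ∈ G, (deg G g : ℝ) ≤ 2 * L)
    (hA : ∀ u ∈ Set.Icc 0 (Tof L D₁), ev μ u (aU L u) ≤ A0)
    (hBad : ∀ u ∈ Set.Icc 0 (Tof L D₁),
      ev μ u (fun H => ((badSet (Dof L u) M H).card : ℝ)) ≤ B0)
    (hQuad : ∀ u ∈ Set.Icc 0 (Tof L D₁), ev μ u (fun H => (quad H : ℝ)) ≤ Q0) :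
    D₁ ^ aW * ev μ (Tof L D₁) (potW D₁) ≤ L ^ aW * (∑ G, μ G * potW L G) +
      3 * 10 ^ 8 * M ^ 5 * A0 * D₁ ^ (-(1167 / 1000) : ℝ) +
      2 * (L ^ aW * (10 ^ 5 * L ^ 8 * B0 + 12 * L * Q0)) := by
  have hD0 : 0 < D₁ := by linarith
  have hL : 0 < L := by linarith
  set T := Tof L D₁ with hT
  have hT0 : 0 ≤ T := Tof_nonneg hD0 hDL
  have hT1 : T ≤ 1 := by
    rw [hT, Tof]
    have h1 : 1 / D₁ ≤ 1 := by rw [div_le_one hD0]; linarith
    have h2 : 0 ≤ 1 / L := by positivity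
    linarith
  set q : ℝ := 1167 / 1000 with hq
  set R := L ^ aW * (10 ^ 5 * L ^ 8 * B0 + 12 * L * Q0) with hR
  have hR0 : 0 ≤ R := by positivity
  set c := 3 * 10 ^ 8 * M ^ 5 * A0 with hc
  have hc0 : 0 ≤ c := by positivity
  have main := ev_le_of_drift μ hT0
    (fun u H => Dof L u ^ aW * potW (Dof L u) H - (c / q * Dof L u ^ (-q) + 2 * R * u))
    (fun u H => -(2 * aW * Dof L u) * Dof L u ^ aW * potW (Dof L u) H +
      Dof L u ^ aW * potW' (Dof L u) H -
      (c / q * (2 * q * Dof L u * Dof L u ^ (-q)) + 2 * R)) ?_ ?_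
  rotate_left
  · intro u hu H
    refine (((hasDerivAt_Dof_rpow hL hu.1 aW).mul (hasDerivAt_potW hL hu.1 H)).sub
      (((hasDerivAt_Dof_rpow hL hu.1 (-q)).const_mul _).add
        ((hasDerivAt_id u).const_mul (2 * R)))).congr_deriv ?_
    ring
  · intro u hu
    set D := Dof L u with hDdef
    have hDge : D₁ ≤ D := le_Dof hL hD0 hu
    have hDu : 0 < D := by linarith
    have hDl : D ≤ L := Dof_le hL hu.1
    have hw : D ^ aW ≤ L ^ aW := Real.rpow_le_rpow hDu.le hDl (by norm_num [aW])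
    have hw0 : 0 ≤ D ^ aW := Real.rpow_nonneg hDu.le _
    refine le_trans (ev_mono hμ hu.1 (f' := fun H =>
      (D ^ (-q) * D * (3 * 10 ^ 8 * M ^ 5)) * aU L u H +
        ((L ^ aW * (10 ^ 5 * L ^ 8)) * ((badSet D M H).card : ℝ) +
          ((L ^ aW * (12 * L)) * (quad H : ℝ) + -(c / q * (2 * q * D * D ^ (-q)) + 2 * R))))
      fun G0 hG0 H hH => ?_) ?_
    · rw [gen_smul_sub]
      have hdr := drift_potW (L := L) (M := M) (by linarith) hM hDl H fun g hg =>
        le_trans (by exact_mod_cast deg_mono hH g) (hdeg G0 hG0 g (hH hg))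
      have hW : 0 ≤ potW D H := sum_nonneg fun g _ => sq_nonneg _
      have hP : 0 ≤ potU D H := sum_nonneg fun g _ => psiU_nonneg _
      have h1 : D ^ aW * (D * potU D H + (H.card : ℝ) / D) ≤ D ^ (-q) * D * aU L u H := by
        rw [aU, ← hDdef]
        have e : D ^ (-q) * D * (D ^ (pU - 1 / 2) *
            (potU D H + 35 * 10 ^ 9 / D ^ 2 * (H.card : ℝ))) =
            D ^ aW * (D * potU D H + 35 * 10 ^ 9 * ((H.card : ℝ) / D)) := by
          have hexp : D ^ aW = D ^ (-q) * D ^ (pU - 1 / 2) := by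
            rw [← Real.rpow_add hDu]; norm_num [aW, pU, hq]
          rw [hexp]; field_simp
        rw [e]
        refine mul_le_mul_of_nonneg_left ?_ hw0
        have : 0 ≤ (H.card : ℝ) / D := by positivity
        linarith
      have h2 := mul_le_mul_of_nonneg_left hdr hw0
      have h3 := mul_le_mul_of_nonneg_left h1 (by positivity : (0 : ℝ) ≤ 3 * 10 ^ 8 * M ^ 5)
      have h4 := mul_le_mul_of_nonneg_right hw
        (by positivity : (0 : ℝ) ≤ 10 ^ 5 * L ^ 8 * ((badSet D M H).card : ℝ) + 12 * L * (quad H : ℝ))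
      have h5 : 0 ≤ D ^ aW * (4 / 100 * D * potW D H) := by positivity
      have e2 : -(2 * aW * D) * D ^ aW * potW D H = -(110 / 100) * (D ^ aW * (D * potW D H)) := by
        rw [show (aW : ℝ) = 11 / 20 from rfl]; ring
      linarith
    · simp only [ev_add, ev_smul, ev_const]
      have h1 := mul_le_mul_of_nonneg_left (hA u hu)
        (by positivity : (0 : ℝ) ≤ D ^ (-q) * D * (3 * 10 ^ 8 * M ^ 5))
      have h2 := mul_le_mul_of_nonneg_left (hBad u hu)
        (by positivity : (0 : ℝ) ≤ L ^ aW * (10 ^ 5 * L ^ 8))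
      have h3 := mul_le_mul_of_nonneg_left (hQuad u hu) (by positivity : (0 : ℝ) ≤ L ^ aW * (12 * L))
      have e : c / q * (2 * q * D * D ^ (-q)) = 2 * (c * D * D ^ (-q)) := by
        rw [hq]; field_simp
      have e2 : L ^ aW * (10 ^ 5 * L ^ 8) * B0 + L ^ aW * (12 * L) * Q0 = R := by rw [hR]; ring
      have e3 : D ^ (-q) * D * (3 * 10 ^ 8 * M ^ 5) * A0 = c * D * D ^ (-q) := by rw [hc]; ring
      have h4 := mul_le_mul_of_nonneg_right hμh
        (by positivity : (0 : ℝ) ≤ 2 * (c * D * D ^ (-q)) + 2 * R)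
      rw [e]
      linarith
  rw [show Dof L T = D₁ from Dof_Tof hL hD0] at main
  have hL0 : Dof L (0 : ℝ) = L := Dof_zero L
  simp only [hL0] at main
  simp only [sub_eq_add_neg, ev_add, ev_smul, ev_const] at main
  have hk : 0 ≤ c / q * L ^ (-q) := by rw [hq]; positivity
  have hr : ∑ G, μ G * (L ^ aW * potW L G + -(c / q * L ^ (-q) + 2 * R * 0)) ≤
      L ^ aW * ∑ G, μ G * potW L G := by
    rw [mul_sum]
    refine sum_le_sum fun G _ => ?_
    have := mul_nonneg (hμ G) hk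
    linarith
  have hneg : (∑ G, μ G) * (c / q * D₁ ^ (-q) + 2 * R * T) ≤ c * D₁ ^ (-q) + 2 * R := by
    refine (mul_le_of_le_one_left (by rw [hq]; positivity) hμ1).trans (add_le_add ?_ ?_)
    · refine mul_le_mul_of_nonneg_right ?_ (Real.rpow_nonneg hD0.le _)
      rw [hq]; exact div_le_self hc0 (by norm_num)
    · exact mul_le_of_le_one_right (by positivity) hT1
  linarith

end Vale.Agent.P046.Full.Two
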