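import Vale.Agent.P046.Full.Base

/-!
P046, phase two: the elementary asymptotic facts used in the assembly.
-/

namespace Vale.Agent.P046.Full.Two

open Filter
open scoped Topology

lemma tendsto_lg : Tendsto (fun n : ℕ => lg n) atTop atTop :=
  Real.tendsto_log_atTop.comp tendsto_natCast_atTop_atTop

/-- Powers of the double logarithm cost nothing. -/
lemma eventually_loglog (K : ℝ) (k : ℕ) {a b : ℝ} (hab : a < b) :
    ∀ᶠ n : ℕ in atTop, K * Real.log (lg n) ^ k * lg n ^ a ≤ lg n ^ b := by
  have h := (isLittleO_log_rpow_rpow_atTop (k : ℝ) (sub_pos.2 hab)).def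
    (c := 1 / (|K| + 1)) (by positivity)
  have h2 : ∀ᶠ x : ℝ in atTop, K * Real.log x ^ k * x ^ a ≤ x ^ b := by
    filter_upwards [h, eventually_gt_atTop 1] with x hx hx1
    rw [Real.norm_eq_abs, Real.norm_eq_abs, Real.rpow_natCast,
      abs_of_nonneg (Real.rpow_nonneg (by linarith) _)] at hx
    have hx0 : 0 < x := by linarith
    have e : x ^ b = x ^ (b - a) * x ^ a := by rw [← Real.rpow_add hx0, sub_add_cancel]
    rw [e]
    refine mul_le_mul_of_nonneg_right ?_ (Real.rpow_nonneg hx0.le _)
    calc K * Real.log x ^ k ≤ |K| * |Real.log x ^ k| := by rw [← abs_mul]; exact le_abs_self _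
      _ ≤ (|K| + 1) * (1 / (|K| + 1) * x ^ (b - a)) := by
          refine mul_le_mul (by linarith) hx (abs_nonneg _) (by positivity)
      _ = _ := by field_simp
  exact tendsto_lg.eventually h2

/-- A constant times a smaller power is below a larger power. -/
lemma eventually_rpow (K : ℝ) {a b : ℝ} (hab : a < b) :
    ∀ᶠ n : ℕ in atTop, K * lg n ^ a ≤ lg n ^ b := by
  filter_upwards [eventually_loglog K 0 hab] with n hn
  simpa using hn

/-- The rare events beat every power of the logarithm. -/
lemma eventually_exp_loglog (K a b : ℝ) :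
    ∀ᶠ n : ℕ in atTop, K * lg n ^ a * Real.exp (-(Real.log (lg n) ^ 2 / 4)) ≤ lg n ^ b := by
  have h2 : ∀ᶠ x : ℝ in atTop, K * x ^ a * Real.exp (-(Real.log x ^ 2 / 4)) ≤ x ^ b := by
    filter_upwards [eventually_ge_atTop (|K| + 1),
      Real.tendsto_log_atTop.eventually (eventually_ge_atTop (4 * |a + 1 - b|)),
      eventually_gt_atTop 1] with x hK hl hx1
    have hx0 : 0 < x := by linarith
    have hl0 : 0 < Real.log x := Real.log_pos hx1
    have h1 : Real.exp (-(Real.log x ^ 2 / 4)) ≤ x ^ (b - 1 - a) := by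
      rw [Real.rpow_def_of_pos hx0, Real.exp_le_exp]
      have h3 := mul_le_mul_of_nonneg_left hl hl0.le
      have h4 := mul_le_mul_of_nonneg_left (le_abs_self (a + 1 - b)) hl0.le
      linarith
    have e : x * (x ^ a * x ^ (b - 1 - a)) = x ^ b := by
      nth_rewrite 1 [← Real.rpow_one x]
      rw [← Real.rpow_add hx0, ← Real.rpow_add hx0]
      ring_nf
    calc K * x ^ a * Real.exp (-(Real.log x ^ 2 / 4))
        ≤ |K| * x ^ a * Real.exp (-(Real.log x ^ 2 / 4)) := by gcongr; exact le_abs_self K
      _ ≤ x * x ^ a * x ^ (b - 1 - a) := by gcongr; linarith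
      _ = _ := by rw [mul_assoc, e]
  exact tendsto_lg.eventually h2

/-- Powers of the logarithm are below any power of `n`. -/
lemma eventually_lg_natCast (K a b : ℝ) {c : ℝ} (hc : 0 < c) :
    ∀ᶠ n : ℕ in atTop, K * lg n ^ a ≤ lg n ^ b * (n : ℝ) ^ c := by
  have h := (isLittleO_log_rpow_rpow_atTop (a - b) hc).def (c := 1 / (|K| + 1)) (by positivity)
  have h2 : ∀ᶠ x : ℝ in atTop, K * Real.log x ^ a ≤ Real.log x ^ b * x ^ c := by
    filter_upwards [h, eventually_gt_atTop 1] with x hx hx1
    have hl : 0 < Real.log x := Real.log_pos hx1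
    rw [Real.norm_eq_abs, Real.norm_eq_abs, abs_of_nonneg (Real.rpow_nonneg hl.le _),
      abs_of_nonneg (Real.rpow_nonneg (by linarith) _)] at hx
    have e : Real.log x ^ a = Real.log x ^ b * Real.log x ^ (a - b) := by
      rw [← Real.rpow_add hl]; ring_nf
    rw [e, mul_left_comm]
    refine mul_le_mul_of_nonneg_left ?_ (Real.rpow_nonneg hl.le _)
    calc K * Real.log x ^ (a - b) ≤ (|K| + 1) * (1 / (|K| + 1) * x ^ c) :=
          mul_le_mul (by linarith [le_abs_self K]) hx (Real.rpow_nonneg hl.le _) (by positivity)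
      _ = _ := by field_simp
  exact tendsto_natCast_atTop_atTop.eventually h2

end Vale.Agent.P046.Full.Two
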