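import Vale.Agent.P046.Full.Two.DriftW

/-!
P046, phase two: what only decreases along the process, and the tail of the codegrees.
-/

namespace Vale.Agent.P046.Full.Two

open Finset
open Vale.Agent.P046

variable {n : ℕ}

lemma nbrs_mono {H G : Gr n} (h : H ⊆ G) (g : Finset (Fin n)) : nbrs H g ⊆ nbrs G g := by
  intro f hf
  obtain ⟨hfH, hne, E, hE, h1, h2⟩ := mem_filter.1 hf
  exact mem_filter.2 ⟨h hfH, hne, E, tri_mono h hE, h1, h2⟩

lemma paths2_mono {H G : Gr n} (h : H ⊆ G) (g e : Finset (Fin n)) :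
    paths2 H g e ≤ paths2 G g e := by
  refine card_le_card fun f hf => ?_
  obtain ⟨h1, h2⟩ := mem_filter.1 hf
  exact mem_filter.2 ⟨nbrs_mono h g h1, nbrs_mono h f h2⟩

lemma quad_mono {H G : Gr n} (h : H ⊆ G) : quad H ≤ quad G := by
  refine (sum_le_sum fun g hg => ?_).trans (sum_le_sum_of_subset h)
  refine (sum_le_sum fun e _ => ?_).trans (sum_le_sum_of_subset (erase_subset_erase g h))
  exact Nat.mul_le_mul (paths2_mono h g e) (Nat.sub_le_sub_right (paths2_mono h g e) 1)

/-- The edges reached in `R` steps, over any start, number at most two per new triangle. -/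
lemma ball_union_card {G : Gr n} (g : Finset (Fin n)) (E₀ T₀ : Finset (Finset (Fin n)))
    (hg : g ∈ E₀) (hT₀ : ∀ F ∈ T₀, sides F ⊆ E₀) :
    ∀ R, (E₀ ∪ (ball G g R).1).card ≤ E₀.card + 2 * ((ball G g R).2 \ T₀).card ∧
      ∀ F ∈ (ball G g R).2, sides F ⊆ (ball G g R).1 := by
  intro R
  induction R with
  | zero => simp [ball, union_eq_left.2 (singleton_subset_iff.2 hg)]
  | succ R ih =>
    obtain ⟨ih1, ih2⟩ := ih
    have heq : ball G g (R + 1) = ((ball G g R).1 ∪
        ((tri G).filter (fun F => ¬Disjoint (sides F) (ball G g R).1)).biUnion sides,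
        (tri G).filter (fun F => ¬Disjoint (sides F) (ball G g R).1)) := rfl
    set T := (tri G).filter (fun F => ¬Disjoint (sides F) (ball G g R).1) with hT
    rw [heq]
    refine ⟨?_, fun F hF => (subset_biUnion_of_mem sides hF).trans subset_union_right⟩
    have hsub : (ball G g R).2 ⊆ T := by
      intro F hF
      have hFt : F ∈ tri G := by
        cases R with
        | zero => simp [ball] at hF
        | succ R => exact (mem_filter.1 hF).1
      refine mem_filter.2 ⟨hFt, fun hd => ?_⟩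
      obtain ⟨a, ha⟩ := sides_nonempty (mem_tri.1 hFt).1
      exact disjoint_left.1 hd ha (ih2 F hF ha)
    set U := E₀ ∪ (ball G g R).1 with hU
    set N := (T \ T₀) \ (ball G g R).2 with hN
    have hcov : E₀ ∪ ((ball G g R).1 ∪ T.biUnion sides) ⊆ U ∪ N.biUnion (fun F => sides F \ U) := by
      intro a ha
      simp only [mem_union, mem_biUnion] at ha
      by_cases haU : a ∈ U
      · exact mem_union_left _ haU
      refine mem_union_right _ ?_
      rcases ha with ha | ha | ⟨F, hF, haF⟩
      · exact absurd (mem_union_left _ ha) haU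
      · exact absurd (mem_union_right _ ha) haU
      · refine mem_biUnion.2 ⟨F, mem_sdiff.2 ⟨mem_sdiff.2 ⟨hF, fun h => haU ?_⟩, fun h => haU ?_⟩,
          mem_sdiff.2 ⟨haF, haU⟩⟩
        · exact mem_union_left _ (hT₀ F h haF)
        · exact mem_union_right _ (ih2 F h haF)
    have h2 : ∀ F ∈ N, (sides F \ U).card ≤ 2 := by
      intro F hF
      have hFT := mem_filter.1 (mem_sdiff.1 (mem_sdiff.1 hF).1).1
      obtain ⟨a, ha1, ha2⟩ := not_disjoint_iff.1 hFT.2
      have h3 := card_sides (mem_tri.1 hFT.1).1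
      have : (sides F \ U).card < (sides F).card :=
        card_lt_card ⟨sdiff_subset, fun h => (mem_sdiff.1 (h ha1)).2 (mem_union_right _ ha2)⟩
      omega
    have h4 : ((ball G g R).2 \ T₀).card + N.card ≤ (T \ T₀).card := by
      rw [← card_union_of_disjoint (disjoint_left.2 fun F h1 h2 =>
        (mem_sdiff.1 h2).2 (mem_sdiff.1 h1).1)]
      exact card_le_card (union_subset (sdiff_subset_sdiff hsub le_rfl) sdiff_subset)
    calc (E₀ ∪ ((ball G g R).1 ∪ T.biUnion sides)).card
        ≤ U.card + (N.biUnion (fun F => sides F \ U)).card :=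
          (card_le_card hcov).trans (card_union_le _ _)
      _ ≤ U.card + N.card * 2 := Nat.add_le_add_left (card_biUnion_le_card_mul _ _ _ h2) _
      _ ≤ E₀.card + 2 * (T \ T₀).card := by omega

lemma ball_mono {H G : Gr n} (h : H ⊆ G) (g : Finset (Fin n)) :
    ∀ R, (ball H g R).1 ⊆ (ball G g R).1 ∧ (ball H g R).2 ⊆ (ball G g R).2 := by
  intro R
  induction R with
  | zero => simp [ball]
  | succ R ih =>
    have hT : (tri H).filter (fun F => ¬Disjoint (sides F) (ball H g R).1) ⊆
        (tri G).filter (fun F => ¬Disjoint (sides F) (ball G g R).1) := by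
      intro F hF
      obtain ⟨h1, h2⟩ := mem_filter.1 hF
      exact mem_filter.2 ⟨tri_mono h h1, fun hd => h2 (disjoint_of_subset_right ih.1 hd)⟩
    exact ⟨union_subset_union ih.1 (biUnion_subset_biUnion_of_subset_left _ hT), hT⟩

lemma mem_ball (G : Gr n) (g : Finset (Fin n)) : ∀ R, g ∈ (ball G g R).1 := by
  intro R
  induction R with
  | zero => simp [ball]
  | succ R ih => exact mem_union_left _ ih

lemma treeBall_mono {H G : Gr n} (h : H ⊆ G) {R : ℕ} {g : Finset (Fin n)}
    (ht : treeBall G R g) : treeBall H R g := by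
  unfold treeBall at *
  have hH : (ball H g R).1.card ≤ 1 + 2 * (ball H g R).2.card := by
    have h1 := (ball_union_card (G := H) g {g} ∅ (mem_singleton_self g) (by simp) R).1
    have h2 : (ball H g R).1.card ≤ ({g} ∪ (ball H g R).1).card :=
      card_le_card subset_union_right
    simp only [card_singleton, sdiff_empty] at h1
    omega
  have hin : ∀ F ∈ (ball H g R).2, sides F ⊆ (ball H g R).1 :=
    (ball_union_card (G := H) g {g} ∅ (mem_singleton_self g) (by simp) R).2
  have h3 := (ball_union_card (G := G) g (ball H g R).1 (ball H g R).2 (mem_ball H g R) hin R).1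
  rw [union_eq_right.2 (ball_mono h g R).1] at h3
  have h4 := card_sdiff_add_card_eq_card (ball_mono h g R).2
  omega

lemma badBalls_mono {H G : Gr n} (h : H ⊆ G) (R : ℕ) : badBalls R H ≤ badBalls R G := by
  classical
  unfold badBalls
  exact Nat.cast_le.2 (card_le_card fun g hg => mem_filter.2
    ⟨h (mem_filter.1 hg).1, fun ht => (mem_filter.1 hg).2 (treeBall_mono h ht)⟩)

lemma ev_le_init {μ : Gr n → ℝ} (hμ : ∀ G, 0 ≤ μ G) {u : ℝ} (hu : 0 ≤ u) {f : Gr n → ℝ}
    (hf : ∀ G H, H ⊆ G → f H ≤ f G) : ev μ u f ≤ ∑ G, μ G * f G := by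
  refine sum_le_sum fun G _ => mul_le_mul_of_nonneg_left ?_ (hμ G)
  refine (expAt_le_on hu (f' := fun _ => f G) fun H hH => hf G H hH).trans_eq ?_
  rw [expAt, semi_const]

/-- The tail of the codegrees. -/
lemma ev_tail_le {μ : Gr n → ℝ} (hμ : ∀ G, 0 ≤ μ G) {b y : ℝ} (hb : 0 ≤ b) :
    ev μ b (fun H => ((H.filter (fun g => y ≤ (deg H g : ℝ))).card : ℝ)) ≤
      Real.exp (-y * b) * ∑ G, μ G * (G.card : ℝ) := by
  set f : Gr n → ℝ := fun H => ((H.filter (fun g => y ≤ (deg H g : ℝ))).card : ℝ) with hf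
  have main := ev_le_of_drift μ hb (fun u H => Real.exp (y * u) * f H)
    (fun u H => y * Real.exp (y * u) * f H)
    (fun u _ H => by
      refine (((hasDerivAt_id u).const_mul y).exp.mul_const (f H)).congr_deriv ?_
      simp only [id, mul_one]; ring)
    (fun u hu => by
      refine le_trans (ev_mono hμ hu.1 (f' := fun _ => 0) fun _ _ H _ => ?_) (by simp [ev_const])
      have hc : ∀ K : Gr n, f K = ∑ g ∈ K, if y ≤ (deg K g : ℝ) then (1 : ℝ) else 0 := fun K => by
        simp only [hf, card_filter, Nat.cast_sum]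
        exact sum_congr rfl fun g _ => by split_ifs <;> simp
      rw [gen_rstep]
      simp only [← mul_sub, ← mul_sum, hc]
      rw [gen_edge_sum (fun K g => if y ≤ (deg K g : ℝ) then (1 : ℝ) else 0) H]
      have h1 : ∀ g ∈ H, (∑ E ∈ (tri H).filter (fun E => g ∉ sides E),
          ((if y ≤ (deg (rem H E) g : ℝ) then (1 : ℝ) else 0) -
            if y ≤ (deg H g : ℝ) then (1 : ℝ) else 0)) -
          (deg H g : ℝ) * (if y ≤ (deg H g : ℝ) then (1 : ℝ) else 0) ≤
          -(y * if y ≤ (deg H g : ℝ) then (1 : ℝ) else 0) := by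
        intro g _
        have h2 : ∀ E, (if y ≤ (deg (rem H E) g : ℝ) then (1 : ℝ) else 0) ≤
            if y ≤ (deg H g : ℝ) then (1 : ℝ) else 0 := by
          intro E
          have hm : (deg (rem H E) g : ℝ) ≤ (deg H g : ℝ) := by
            exact_mod_cast deg_mono (rem_subset H E) g
          split_ifs <;> linarith
        have h3 := sum_nonpos (s := (tri H).filter (fun E => g ∉ sides E))
          (f := fun E => (if y ≤ (deg (rem H E) g : ℝ) then (1 : ℝ) else 0) -
            if y ≤ (deg H g : ℝ) then (1 : ℝ) else 0) fun E _ => sub_nonpos.2 (h2 E)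
        split_ifs at h3 ⊢ <;> linarith
      have h4 := mul_le_mul_of_nonneg_left (sum_le_sum h1) (Real.exp_pos (y * u)).le
      rw [sum_neg_distrib, ← mul_sum] at h4
      linarith)
  rw [ev_smul] at main
  have h0 : ∑ G, μ G * (Real.exp (y * 0) * f G) ≤ ∑ G, μ G * (G.card : ℝ) := by
    refine sum_le_sum fun G _ => mul_le_mul_of_nonneg_left ?_ (hμ G)
    rw [mul_zero, Real.exp_zero, one_mul]
    exact Nat.cast_le.2 (card_filter_le _ _)
  rw [neg_mul, Real.exp_neg, ← div_eq_inv_mul, le_div_iff₀ (Real.exp_pos _), mul_comm]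
  exact main.trans h0

/-- The bad edges are rare in mean. -/
lemma ev_badSet_le {μ : Gr n → ℝ} (hμ : ∀ G, 0 ≤ μ G) {L D₁ M u : ℝ} (hD : 0 < D₁)
    (hDL : D₁ ≤ L) (hM : 4 ≤ M) (hu : u ∈ Set.Icc 0 (Tof L D₁))
    (hdeg : ∀ G, μ G ≠ 0 → ∀ g ∈ G, (deg G g : ℝ) ≤ 2 * L) :
    ev μ u (fun H => ((badSet (Dof L u) M H).card : ℝ)) ≤
      Real.exp (-(M / 4)) * ∑ G, μ G * (G.card : ℝ) := by
  have hL : 0 < L := by linarith
  set D := Dof L u with hDdef
  have hS : 0 ≤ ∑ G, μ G * (G.card : ℝ) := sum_nonneg fun G _ => mul_nonneg (hμ G) (Nat.cast_nonneg _)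
  rcases le_or_gt D (L / 2) with h | h
  · refine le_trans ?_ (le_trans (ev_tail_le hμ (y := M * D) hu.1) (mul_le_mul_of_nonneg_right ?_ hS))
    · refine ev_mono hμ hu.1 fun _ _ H _ => Nat.cast_le.2 (card_le_card fun g hg => ?_)
      exact mem_filter.2 ⟨(mem_filter.1 hg).1, (mem_filter.1 hg).2.le⟩
    · refine Real.exp_le_exp.2 ?_
      have h2 : D / L ≤ 1 / 2 := by rw [div_le_iff₀ hL]; linarith
      have h3 := Dof_mul hL hu.1
      rw [← hDdef] at h3
      nlinarith
  · refine le_trans (le_trans (ev_mono hμ hu.1 (f' := fun _ => (0 : ℝ)) fun G hG H hH => ?_)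
      (by simp [ev_const])) (mul_nonneg (Real.exp_pos _).le hS)
    have : badSet D M H = ∅ := by
      rw [badSet, filter_eq_empty_iff]
      intro g hg hlt
      have h1 : (deg H g : ℝ) ≤ 2 * L :=
        le_trans (by exact_mod_cast deg_mono hH g) (hdeg G hG g (hH hg))
      nlinarith
    simp [this]

end Vale.Agent.P046.Full.Two
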