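import Vale.Agent.P046.Full.Two.Count
import Vale.Agent.P046.Full.Two.EvW
import Vale.Agent.P046.Full.Two.Mono
import Vale.Agent.P046.Full.Two.Limits

/-!
P046, phase two: from `EarlyData` at codegree `Lv n` to `MidData` at codegree `D1v n`.
-/

namespace Vale.Agent.P046.Full.Two

open Finset Filter
open Vale.Agent.P046

variable {n : ℕ}

lemma r1_eq (n : ℕ) : r1 n = rL n + Tof (Lv n) (D1v n) := by
  unfold r1 rL timeOf Tof; ring

lemma m0_pow {L : ℝ} (n : ℕ) (hL : 0 < L) (a : ℝ) :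
    m0 n L * L ^ a = (n : ℝ) * Real.sqrt n / 2 * L ^ (1 / 2 + a) := by
  rw [m0_eq, mul_assoc, ← Real.rpow_add hL]

/-- The value at the start of the supermartingale. -/
lemma aU_init {μ : Gr n → ℝ} (hμ : ∀ G, 0 ≤ μ G) {L C : ℝ} (hL : 0 < L)
    (h4 : ∑ G, μ G * potU4 L G ≤ C * m0 n L / L ^ 2)
    (hc : ∑ G, μ G * (G.card : ℝ) ≤ 2 * m0 n L) :
    ∑ G, μ G * aU L 0 G ≤ (2 * C + 7 * 10 ^ 10) * ((n : ℝ) * Real.sqrt n / 2) * L ^ (pU - 2) := by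
  have h1 : ∀ G ∈ (univ : Finset (Gr n)), μ G * aU L 0 G ≤ L ^ (pU - 1 / 2) *
      (2 * (μ G * potU4 L G) + 35 * 10 ^ 9 / L ^ 2 * (μ G * (G.card : ℝ))) := by
    intro G _
    rw [aU, Dof_zero]
    have h2 : potU L G ≤ 2 * potU4 L G := by
      rw [potU, potU4, mul_sum]; exact sum_le_sum fun g _ => psiU_le _
    have h3 := mul_le_mul_of_nonneg_left h2
      (mul_nonneg (hμ G) (Real.rpow_nonneg hL.le (pU - 1 / 2)))
    linarith
  refine (sum_le_sum h1).trans ?_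
  rw [← mul_sum, sum_add_distrib, ← mul_sum, ← mul_sum]
  calc L ^ (pU - 1 / 2) * (2 * ∑ G, μ G * potU4 L G + 35 * 10 ^ 9 / L ^ 2 * ∑ G, μ G * (G.card : ℝ))
      ≤ L ^ (pU - 1 / 2) * (2 * (C * m0 n L / L ^ 2) + 35 * 10 ^ 9 / L ^ 2 * (2 * m0 n L)) := by
        gcongr
    _ = (2 * C + 7 * 10 ^ 10) * (m0 n L * L ^ (pU - 5 / 2)) := by
        have : L ^ (pU - 1 / 2) = L ^ (pU - 5 / 2) * L ^ 2 := by
          rw [← Real.rpow_natCast L 2, ← Real.rpow_add hL]; norm_num; ring_nf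
        rw [this]; field_simp; ring
    _ = _ := by rw [m0_pow n hL]; ring_nf

/-- The mean of `potU` along the phase. -/
lemma ev_potU_le {μ : Gr n → ℝ} (hμ : ∀ G, 0 ≤ μ G) {L u A : ℝ} (hL : 0 < L) (hu : 0 ≤ u)
    (h : ev μ u (aU L u) ≤ A * ((n : ℝ) * Real.sqrt n / 2) * L ^ (pU - 2)) :
    ev μ u (potU (Dof L u)) ≤ A * L ^ (pU - 2) * m0 n (Dof L u) * Dof L u ^ (-pU) := by
  set D := Dof L u with hD
  have hD0 : 0 < D := Dof_pos hL hu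
  have h1 : D ^ (pU - 1 / 2) * ev μ u (potU D) ≤ ev μ u (aU L u) := by
    rw [← ev_smul]
    refine ev_mono hμ hu fun _ _ H _ => ?_
    rw [aU, ← hD]
    refine mul_le_mul_of_nonneg_left ?_ (Real.rpow_nonneg hD0.le _)
    have : 0 ≤ 35 * 10 ^ 9 / D ^ 2 * (H.card : ℝ) := by positivity
    linarith
  have e : A * L ^ (pU - 2) * m0 n D * D ^ (-pU) =
      A * ((n : ℝ) * Real.sqrt n / 2) * L ^ (pU - 2) / D ^ (pU - 1 / 2) := by
    rw [div_eq_mul_inv, ← Real.rpow_neg hD0.le, mul_assoc (A * L ^ (pU - 2)), m0_pow n hD0]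
    ring_nf
  rw [e, le_div_iff₀ (Real.rpow_pos_of_pos hD0 _), mul_comm]
  exact h1.trans h

/-- The mass and the mean count at the start. -/
lemma early_basic {C ε : ℝ} {μ : Gr n → ℝ} (hn : 2 ≤ n) (hL : 0 < Lv n) (hε : ε ≤ 1)
    (h : EarlyData C ε n μ) :
    1 / 2 ≤ ∑ G, μ G ∧ ∑ G, μ G * (G.card : ℝ) ≤ 2 * m0 n (Lv n) ∧
      ∑ G, μ G * |(G.card : ℝ) / m0 n (Lv n) - 1| ≤ ε := by
  obtain ⟨⟨hμ, hμ1, hclose⟩, -, -, -, -, hcard, -, -⟩ := h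
  have hm := m0_pos (by omega : 1 ≤ n) hL
  refine ⟨?_, ?_, ?_⟩
  · have h1 := hclose (fun _ => 1) fun _ => ⟨by norm_num, le_rfl⟩
    rw [expAt, semi_const] at h1
    simp only [mul_one] at h1
    have h2 : (1 : ℝ) / (n : ℝ) ^ 8 ≤ 1 / 2 := by
      apply one_div_le_one_div_of_le (by norm_num)
      calc (2 : ℝ) ≤ (n : ℝ) := by exact_mod_cast hn
        _ ≤ _ := le_self_pow₀ (by exact_mod_cast (by omega : 1 ≤ n)) (by norm_num)
    linarith [(abs_le.1 h1).1]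
  · calc ∑ G, μ G * (G.card : ℝ)
        ≤ ∑ G, (μ G * |(G.card : ℝ) - m0 n (Lv n)| + μ G * m0 n (Lv n)) := by
          refine sum_le_sum fun G _ => ?_
          rw [← mul_add]
          exact mul_le_mul_of_nonneg_left (by linarith [le_abs_self ((G.card : ℝ) - m0 n (Lv n))])
            (hμ G)
      _ ≤ ε * m0 n (Lv n) + 1 * m0 n (Lv n) := by
          rw [sum_add_distrib, ← sum_mul]
          exact add_le_add hcard (mul_le_mul_of_nonneg_right hμ1 hm.le)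
      _ ≤ _ := by nlinarith
  · have e : ∀ G : Gr n, μ G * |(G.card : ℝ) / m0 n (Lv n) - 1| =
        μ G * |(G.card : ℝ) - m0 n (Lv n)| / m0 n (Lv n) := fun G => by
      rw [show (G.card : ℝ) / m0 n (Lv n) - 1 = ((G.card : ℝ) - m0 n (Lv n)) / m0 n (Lv n) by
        field_simp, abs_div, abs_of_pos hm, mul_div_assoc]
    rw [sum_congr rfl fun G _ => e G, ← sum_div, div_le_iff₀ hm]
    exact hcard

lemma push_nonneg {μ : Gr n → ℝ} (hμ : ∀ G, 0 ≤ μ G) {u : ℝ} (hu : 0 ≤ u) (H : Gr n) :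
    0 ≤ push μ u H :=
  ev_nonneg hμ hu fun _ _ K _ => by split_ifs <;> norm_num

lemma push_support {μ : Gr n → ℝ} (hμ : ∀ G, 0 ≤ μ G) {u : ℝ} (hu : 0 ≤ u) {H : Gr n}
    (h : push μ u H ≠ 0) : ∃ G, μ G ≠ 0 ∧ H ⊆ G := by
  by_contra hc
  push Not at hc
  refine h (le_antisymm ?_ (push_nonneg hμ hu H))
  refine (ev_mono hμ hu (f' := fun _ => (0 : ℝ)) fun G hG K hK => ?_).trans (by simp [ev_const])
  rw [if_neg fun e => hc G hG (by rw [← e]; exact hK)]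

/-- The numerical conditions on `n`. -/
def Num (C ζ : ℝ) (n : ℕ) : Prop :=
  2 ≤ n ∧ 10 ^ 9 ≤ D1v n ∧ D1v n ≤ Lv n ∧ 2 ≤ Real.log (lg n) ∧
  (2 * C + 7 * 10 ^ 10) * Lv n ^ (pU - 2) ≤ D1v n ^ (pU - 6 / 5) ∧
  10 / (ζ / (33 / 10 * Real.log (lg n))) ^ 3 * ((2 * C + 7 * 10 ^ 10) * Lv n ^ (pU - 2)) *
    D1v n ^ (-pU) ≤ ζ ∧
  24 * Lv n ^ 2 / (ζ * (n : ℝ)) ≤ ζ ∧
  C * lg n ^ (3 : ℝ) * Lv n ^ (aW - 3 / 2) ≤ 1 / 3 * D1v n ^ (-(1 / 10) : ℝ) ∧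
  3 * 10 ^ 8 * (Real.log (lg n) ^ 2) ^ 5 * ((2 * C + 7 * 10 ^ 10) * Lv n ^ (pU - 2)) *
    D1v n ^ (-(1167 / 1000) : ℝ) ≤ 1 / 3 * D1v n ^ (-(1 / 10) : ℝ) ∧
  4 * 10 ^ 5 * Lv n ^ (10 : ℝ) * Real.exp (-(Real.log (lg n) ^ 2 / 4)) ≤
    1 / 6 * D1v n ^ (-(1 / 10) : ℝ) ∧
  48 * Lv n ^ 2 ≤ 1 / 6 * D1v n ^ (-(1 / 10) : ℝ) * (n : ℝ) ^ (1 / 8 : ℝ)

lemma eventually_num {C ζ : ℝ} (hζ : 0 < ζ) : ∀ᶠ n : ℕ in atTop, Num C ζ n := by
  set K := 2 * C + 7 * 10 ^ 10 with hK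
  have hlg := tendsto_lg.eventually (eventually_ge_atTop (1 : ℝ))
  have hll := (Real.tendsto_log_atTop.comp tendsto_lg).eventually (eventually_ge_atTop (2 : ℝ))
  filter_upwards [eventually_ge_atTop 2, hlg, hll,
    eventually_rpow (10 ^ 9) (by norm_num : (0 : ℝ) < 9 / 10),
    eventually_rpow 1 (by norm_num : (9 / 10 : ℝ) < 21 / 5),
    eventually_rpow K (by norm_num [pU] : 21 / 5 * (pU - 2) < 9 / 10 * (pU - 6 / 5)),
    eventually_loglog (10 / (ζ / (33 / 10)) ^ 3 * K / ζ) 3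
      (by norm_num [pU] : 21 / 5 * (pU - 2) + 9 / 10 * (-pU) < 0),
    eventually_lg_natCast (24 / (ζ * ζ)) (42 / 5) 0 (by norm_num : (0 : ℝ) < 1),
    eventually_rpow (3 * C) (by norm_num [aW] : 3 + 21 / 5 * (aW - 3 / 2) < 9 / 10 * -(1 / 10)),
    eventually_loglog (9 * 10 ^ 8 * K) 10
      (by norm_num [pU] : 21 / 5 * (pU - 2) + 9 / 10 * -(1167 / 1000) < 9 / 10 * -(1 / 10)),
    eventually_exp_loglog (24 * 10 ^ 5) 42 (9 / 10 * -(1 / 10)),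
    eventually_lg_natCast (288 : ℝ) (42 / 5) (9 / 10 * -(1 / 10))
      (by norm_num : (0 : ℝ) < 1 / 8)]
    with n h2 hl hll hD hDL h5 h6 h7 h8 h9 h10 h11
  have hl0 : 0 < lg n := by linarith
  have hn0 : (0 : ℝ) < n := by exact_mod_cast (by omega : 0 < n)
  have eL : ∀ a : ℝ, Lv n ^ a = lg n ^ (21 / 5 * a) := fun a => by rw [Lv, ← Real.rpow_mul hl0.le]
  have eD : ∀ a : ℝ, D1v n ^ a = lg n ^ (9 / 10 * a) := fun a => by rw [D1v, ← Real.rpow_mul hl0.le]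
  have eL2 : Lv n ^ 2 = lg n ^ (42 / 5 : ℝ) := by
    rw [← Real.rpow_natCast, eL]; norm_num
  simp only [Real.rpow_zero, mul_one, one_mul, Real.rpow_one] at *
  refine ⟨h2, hD, hDL, hll, ?_, ?_, ?_, ?_, ?_, ?_, ?_⟩
  · rw [eL, eD]; exact h5
  · rw [eL, eD, ← hK]
    have h := mul_le_mul_of_nonneg_left h6 hζ.le
    have e : 10 / (ζ / (33 / 10 * Real.log (lg n))) ^ 3 * (K * lg n ^ (21 / 5 * (pU - 2))) *
        lg n ^ (9 / 10 * -pU) = ζ * (10 / (ζ / (33 / 10)) ^ 3 * K / ζ * Real.log (lg n) ^ 3 *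
          lg n ^ (21 / 5 * (pU - 2) + 9 / 10 * -pU)) := by
      rw [Real.rpow_add hl0]
      field_simp
    rw [e]
    linarith
  · rw [eL2, div_le_iff₀ (by positivity)]
    have h := mul_le_mul_of_nonneg_left h7 (by positivity : 0 ≤ ζ * ζ)
    have e : ζ * ζ * (24 / (ζ * ζ) * lg n ^ (42 / 5 : ℝ)) = 24 * lg n ^ (42 / 5 : ℝ) := by
      field_simp
    rw [e] at h
    linarith
  · rw [eL, eD, mul_assoc, ← Real.rpow_add hl0]
    linarith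
  · rw [eL, eD, eD, ← hK, mul_assoc, mul_assoc K, ← Real.rpow_add hl0]
    linarith [show (Real.log (lg n) ^ 2) ^ 5 = Real.log (lg n) ^ 10 by ring]
  · rw [eL, eD]
    norm_num at h10 ⊢
    linarith
  · rw [eL2, eD]
    linarith

lemma count_total {ζ : ℝ} (hζ : 0 < ζ) (hζ1 : ζ ≤ 1) {a b c : ℝ} (ha : a ≤ ζ) (hb : b ≤ ζ)
    (hc : c ≤ ζ) : (Real.exp ζ - 1) + Real.exp ζ * (a + ζ + b + c) ≤ 14 * ζ := by
  have h := Real.exp_bound' hζ.le hζ1 (n := 2) (by norm_num)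
  simp [Finset.sum_range_succ, Nat.factorial] at h
  have h' : Real.exp ζ ≤ 1 + 2 * ζ := by nlinarith
  have h3 : Real.exp ζ * (a + ζ + b + c) ≤ Real.exp ζ * (4 * ζ) :=
    mul_le_mul_of_nonneg_left (by linarith) (Real.exp_pos ζ).le
  nlinarith [Real.exp_pos ζ]

lemma mid_potU {μ : Gr n → ℝ} {A : ℝ} {L D₁ : ℝ} (hn : 1 ≤ n) (hD : 0 < D₁)
    (hnum : A * L ^ (pU - 2) ≤ D₁ ^ (pU - 6 / 5))
    (h : ev μ (Tof L D₁) (potU D₁) ≤ A * L ^ (pU - 2) * m0 n D₁ * D₁ ^ (-pU)) :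
    ev μ (Tof L D₁) (potU D₁) ≤ m0 n D₁ * D₁ ^ (-6 / 5 : ℝ) := by
  refine h.trans ?_
  have e : D₁ ^ (-6 / 5 : ℝ) = D₁ ^ (pU - 6 / 5) * D₁ ^ (-pU) := by
    rw [← Real.rpow_add hD]; ring_nf
  rw [e]
  have hm := (m0_pos hn hD).le
  have := mul_le_mul_of_nonneg_right hnum (mul_nonneg hm (Real.rpow_nonneg hD.le (-pU)))
  linarith

lemma mid_potW {μ : Gr n → ℝ} {C : ℝ} (hn : 1 ≤ n) {L D₁ M A0 B0 Q0 lam W0 : ℝ}
    (hD : 1 ≤ D₁) (hL : 1 ≤ L)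
    (hA : A0 = (2 * C + 7 * 10 ^ 10) * ((n : ℝ) * Real.sqrt n / 2) * L ^ (pU - 2))
    (hW : W0 ≤ C * lam * m0 n L / L ^ 2)
    (hB : B0 ≤ Real.exp (-(M / 4)) * (2 * m0 n L)) (hQ : Q0 ≤ (n : ℝ) ^ (11 / 8 : ℝ))
    (n1 : C * lam * L ^ (aW - 3 / 2) ≤ 1 / 3 * D₁ ^ (-(1 / 10) : ℝ))
    (n2 : 3 * 10 ^ 8 * M ^ 5 * ((2 * C + 7 * 10 ^ 10) * L ^ (pU - 2)) *
      D₁ ^ (-(1167 / 1000) : ℝ) ≤ 1 / 3 * D₁ ^ (-(1 / 10) : ℝ))
    (n3 : 4 * 10 ^ 5 * L ^ (10 : ℝ) * Real.exp (-(M / 4)) ≤ 1 / 6 * D₁ ^ (-(1 / 10) : ℝ))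
    (n4 : 48 * L ^ 2 ≤ 1 / 6 * D₁ ^ (-(1 / 10) : ℝ) * (n : ℝ) ^ (1 / 8 : ℝ))
    (h : D₁ ^ aW * ev μ (Tof L D₁) (potW D₁) ≤ L ^ aW * W0 +
      3 * 10 ^ 8 * M ^ 5 * A0 * D₁ ^ (-(1167 / 1000) : ℝ) +
      2 * (L ^ aW * (10 ^ 5 * L ^ 8 * B0 + 12 * L * Q0))) :
    ev μ (Tof L D₁) (potW D₁) ≤ m0 n D₁ * D₁ ^ (-23 / 20 : ℝ) := by
  have hD0 : 0 < D₁ := by linarith
  have hL0 : 0 < L := by linarith
  have hn0 : (0 : ℝ) < n := by exact_mod_cast hn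
  set c := (n : ℝ) * Real.sqrt n / 2 with hc
  have hc0 : 0 ≤ c := by positivity
  have b1 : L ^ aW * W0 ≤ c * (1 / 3 * D₁ ^ (-(1 / 10) : ℝ)) := by
    refine (mul_le_mul_of_nonneg_left hW (Real.rpow_nonneg hL0.le _)).trans ?_
    have e : L ^ aW * (C * lam * m0 n L / L ^ 2) = c * (C * lam * L ^ (aW - 3 / 2)) := by
      rw [m0_eq, ← hc]
      have : L ^ aW * L ^ (1 / 2 : ℝ) = L ^ (aW - 3 / 2) * L ^ 2 := by
        rw [← Real.rpow_natCast L 2, ← Real.rpow_add hL0, ← Real.rpow_add hL0]; norm_num; ring_nf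
      calc L ^ aW * (C * lam * (c * L ^ (1 / 2 : ℝ)) / L ^ 2)
          = C * lam * c * (L ^ aW * L ^ (1 / 2 : ℝ)) / L ^ 2 := by ring
        _ = c * (C * lam * L ^ (aW - 3 / 2)) := by rw [this]; field_simp
    rw [e]
    exact mul_le_mul_of_nonneg_left n1 hc0
  have b2 : 3 * 10 ^ 8 * M ^ 5 * A0 * D₁ ^ (-(1167 / 1000) : ℝ) ≤
      c * (1 / 3 * D₁ ^ (-(1 / 10) : ℝ)) := by
    have := mul_le_mul_of_nonneg_left n2 hc0
    rw [hA]
    linarith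
  have hLa : L ^ aW ≤ L := by
    calc L ^ aW ≤ L ^ (1 : ℝ) := Real.rpow_le_rpow_of_exponent_le hL (by norm_num [aW])
      _ = L := Real.rpow_one L
  have hsq : L ^ (1 / 2 : ℝ) ≤ L := by
    calc L ^ (1 / 2 : ℝ) ≤ L ^ (1 : ℝ) := Real.rpow_le_rpow_of_exponent_le hL (by norm_num)
      _ = L := Real.rpow_one L
  have b3 : 2 * (L ^ aW * (10 ^ 5 * L ^ 8 * B0)) ≤ c * (1 / 6 * D₁ ^ (-(1 / 10) : ℝ)) := by
    have e : L ^ (10 : ℝ) = L * L ^ 8 * L := by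
      rw [show (10 : ℝ) = ((10 : ℕ) : ℝ) by norm_num, Real.rpow_natCast]; ring
    calc 2 * (L ^ aW * (10 ^ 5 * L ^ 8 * B0))
        ≤ 2 * (L ^ aW * (10 ^ 5 * L ^ 8 * (Real.exp (-(M / 4)) * (2 * m0 n L)))) := by gcongr
      _ ≤ 2 * (L * (10 ^ 5 * L ^ 8 * (Real.exp (-(M / 4)) * (2 * (c * L))))) := by
          rw [m0_eq, ← hc]
          gcongr
      _ = c * (4 * 10 ^ 5 * L ^ (10 : ℝ) * Real.exp (-(M / 4))) := by rw [e]; ring
      _ ≤ _ := mul_le_mul_of_nonneg_left n3 hc0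
  have b4 : 2 * (L ^ aW * (12 * L * Q0)) ≤ c * (1 / 6 * D₁ ^ (-(1 / 10) : ℝ)) := by
    have e : c = (n : ℝ) ^ (11 / 8 : ℝ) * (n : ℝ) ^ (1 / 8 : ℝ) / 2 := by
      rw [hc, Real.sqrt_eq_rpow, ← Real.rpow_add hn0]
      nth_rewrite 1 [← Real.rpow_one (n : ℝ)]
      rw [← Real.rpow_add hn0]; norm_num
    have h0 : 0 ≤ (n : ℝ) ^ (11 / 8 : ℝ) := by positivity
    calc 2 * (L ^ aW * (12 * L * Q0)) ≤ 2 * (L * (12 * L * (n : ℝ) ^ (11 / 8 : ℝ))) := by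
          refine mul_le_mul_of_nonneg_left ?_ (by norm_num)
          calc L ^ aW * (12 * L * Q0) ≤ L ^ aW * (12 * L * (n : ℝ) ^ (11 / 8 : ℝ)) := by gcongr
            _ ≤ _ := mul_le_mul_of_nonneg_right hLa (by positivity)
      _ = (n : ℝ) ^ (11 / 8 : ℝ) / 2 * (48 * L ^ 2) := by ring
      _ ≤ (n : ℝ) ^ (11 / 8 : ℝ) / 2 *
          (1 / 6 * D₁ ^ (-(1 / 10) : ℝ) * (n : ℝ) ^ (1 / 8 : ℝ)) := by gcongr
      _ = _ := by rw [e]; ring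
  have htot : D₁ ^ aW * ev μ (Tof L D₁) (potW D₁) ≤ c * D₁ ^ (-(1 / 10) : ℝ) := by linarith
  have e : D₁ ^ aW * (m0 n D₁ * D₁ ^ (-23 / 20 : ℝ)) = c * D₁ ^ (-(1 / 10) : ℝ) := by
    rw [m0_pow n hD0, mul_left_comm, ← hc, ← Real.rpow_add hD0]; norm_num [aW]
  rw [← e] at htot
  exact le_of_mul_le_mul_left htot (Real.rpow_pos_of_pos hD0 _)

lemma mid_count {μ : Gr n → ℝ} (hμ : ∀ G, 0 ≤ μ G) (hμ1 : ∑ G, μ G ≤ 1)
    (hμh : 1 / 2 ≤ ∑ G, μ G) {L D₁ ζ θ A : ℝ} (hn : 1 ≤ n) (hD : 1 ≤ D₁) (hDL : D₁ ≤ L)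
    (hθ : 0 < θ) (hθ1 : θ ≤ 1) (hζ : 0 < ζ) (hζ1 : ζ ≤ 1) (hA : 0 ≤ A)
    (hrat : (L / D₁) ^ θ = Real.exp ζ)
    (hdeg : ∀ G, μ G ≠ 0 → ∀ g ∈ G, (deg G g : ℝ) ≤ 2 * L)
    (hU : ∀ u ∈ Set.Icc 0 (Tof L D₁),
      ev μ u (potU (Dof L u)) ≤ A * m0 n (Dof L u) * Dof L u ^ (-pU))
    (hcard : ∑ G, μ G * (G.card : ℝ) ≤ 2 * m0 n L)
    (hE : ∑ G, μ G * |(G.card : ℝ) / m0 n L - 1| ≤ ζ)
    (n1 : 10 / θ ^ 3 * A * D₁ ^ (-pU) ≤ ζ) (n2 : 24 * L ^ 2 / (ζ * (n : ℝ)) ≤ ζ) :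
    ev μ (Tof L D₁) (fun H => |(H.card : ℝ) - m0 n D₁|) ≤ 14 * ζ * m0 n D₁ := by
  have hD0 : 0 < D₁ := by linarith
  have hn0 : (0 : ℝ) < n := by exact_mod_cast hn
  have hn1 : (1 : ℝ) ≤ n := by exact_mod_cast hn
  refine (ev_count_le hμ hμ1 hμh hn hD hDL hθ hθ1 hζ hA hdeg hU).trans ?_
  rw [hrat, mul_comm (14 * ζ)]
  refine mul_le_mul_of_nonneg_left (count_total hζ hζ1 hE n1 (le_trans ?_ n2))
    (m0_pos hn hD0).le
  have hL : 1 ≤ L := hD.trans hDL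
  have hm : m0 n L ≤ (n : ℝ) * (n : ℝ) * L / 2 := by
    rw [m0]
    gcongr
    · exact (Real.sqrt_le_left (by positivity)).2 (by nlinarith)
    · exact (Real.sqrt_le_left (by positivity)).2 (by nlinarith)
  calc 24 * L / (ζ * (n : ℝ) ^ 3) * ∑ G, μ G * (G.card : ℝ)
      ≤ 24 * L / (ζ * (n : ℝ) ^ 3) * (2 * ((n : ℝ) * (n : ℝ) * L / 2)) :=
        mul_le_mul_of_nonneg_left (by linarith) (by positivity)
    _ = _ := by field_simp

/-- The data of the middle codegree from the data of the early one. -/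
lemma mid_of_early (hcert : CertTwoStmt) {C ζ ε : ℝ} {μ : Gr n → ℝ} (hC : 0 ≤ C) (hζ : 0 < ζ)
    (hζ1 : ζ ≤ 1) (hε : 14 * ζ ≤ ε) (hnum : Num C ζ n) (h : EarlyData C ζ n μ) :
    MidData 2 ε n (push μ (Tof (Lv n) (D1v n))) := by
  obtain ⟨hn, hD9, hDL, hll, n5, n6, n7, n8, n9, n10, n11⟩ := hnum
  have hn1 : 1 ≤ n := by omega
  set L := Lv n with hLdef
  set D₁ := D1v n with hDdef
  have hD0 : 0 < D₁ := by linarith
  have hL0 : 0 < L := by linarith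
  have hL1 : 1 ≤ L := by linarith
  set T := Tof L D₁ with hT
  have hT0 : 0 ≤ T := Tof_nonneg hD0 hDL
  obtain ⟨hmass, hcard, hE⟩ := early_basic hn hL0 hζ1 h
  obtain ⟨⟨hμ, hμ1, hclose⟩, hdeg, -, h4, hW, -, hbad, hquad⟩ := h
  have hdeg' : ∀ G, μ G ≠ 0 → ∀ g ∈ G, (deg G g : ℝ) ≤ 2 * L := fun G hG g hg =>
    (hdeg G hG g hg).2
  set A0 := (2 * C + 7 * 10 ^ 10) * ((n : ℝ) * Real.sqrt n / 2) * L ^ (pU - 2) with hA0
  have hA : ∀ u ∈ Set.Icc 0 T, ev μ u (aU L u) ≤ A0 := fun u hu =>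
    (ev_aU_le hcert hμ hL0 hD9 hu).trans (aU_init hμ hL0 h4 hcard)
  have hU : ∀ u ∈ Set.Icc 0 T, ev μ u (potU (Dof L u)) ≤
      (2 * C + 7 * 10 ^ 10) * L ^ (pU - 2) * m0 n (Dof L u) * Dof L u ^ (-pU) := fun u hu =>
    ev_potU_le hμ hL0 hu.1 (hA u hu)
  refine ⟨⟨push_nonneg hμ hT0, ?_, ?_⟩, ?_, ?_, ?_, ?_, ?_, ?_⟩
  · have h1 := sum_push μ T fun _ => (1 : ℝ)
    simp only [mul_one, ev_const] at h1
    linarith
  · intro f hf
    have h1 : expAt (r1 n) f (complete n) = expAt (rL n) (expAt T f) (complete n) := by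
      rw [r1_eq, expAt_add]
    rw [sum_push, h1, ev]
    refine hclose (expAt T f) fun G => ⟨semi_nonneg _ hT0 (fun H => (hf H).1) G, ?_⟩
    refine (semi_mono _ hT0 (g := fun _ => (1 : ℝ)) (fun H => (hf H).2) G).trans_eq ?_
    rw [semi_const]
  · intro H hH g hg
    obtain ⟨G, hG, hHG⟩ := push_support hμ hT0 hH
    exact le_trans (by exact_mod_cast deg_mono hHG g) (hdeg' G hG g (hHG hg))
  · intro y
    rw [sum_push, show r1 n - rL n = T by rw [r1_eq, hT]; ring]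
    have ht := ev_tail_le hμ (y := (y : ℝ)) hT0
    simp only [Nat.cast_le] at ht
    refine ht.trans ?_
    calc Real.exp (-(y : ℝ) * T) * ∑ G, μ G * (G.card : ℝ)
        ≤ Real.exp (-(y : ℝ) * T) * (2 * m0 n L) :=
          mul_le_mul_of_nonneg_left hcard (Real.exp_pos _).le
      _ = _ := by ring
  · rw [sum_push]
    refine mid_potU (A := 2 * C + 7 * 10 ^ 10) hn1 hD0 n5 ?_
    have := hU T ⟨hT0, le_rfl⟩
    rwa [Dof_Tof hL0 hD0] at this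
  · rw [sum_push]
    refine mid_potW (C := C) (M := Real.log (lg n) ^ 2) (lam := lg n ^ (3 : ℕ)) hn1 (by linarith)
      hL1 hA0 hW le_rfl le_rfl ?_ n9 n10 n11 ?_
    · simpa using n8
    · refine ev_potW_le hμ hmass hμ1 (by linarith) hDL (by nlinarith) ?_ ?_ ?_ hdeg' hA ?_ ?_
      · rw [hA0]; positivity
      · have := m0_pos hn1 hL0; positivity
      · positivity
      · intro u hu
        exact (ev_badSet_le hμ hD0 hDL (by nlinarith) hu hdeg').trans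
          (mul_le_mul_of_nonneg_left hcard (Real.exp_pos _).le)
      · intro u hu
        exact (ev_le_init hμ hu.1 fun G H hHG => Nat.cast_le.2 (quad_mono hHG)).trans hquad
  · rw [sum_push]
    have hlr : (L / D₁) = lg n ^ (33 / 10 : ℝ) := by
      have hl0 : 0 < lg n := by
        by_contra hc
        have : Real.log (lg n) ≤ 0 := by
          rcases (not_lt.1 hc).lt_or_eq with hc | hc
          · have : lg n = 0 ∨ 0 < lg n := by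
              rcases (Real.log_natCast_nonneg n).lt_or_eq with h | h
              · exact Or.inr h
              · exact Or.inl h.symm
            rcases this with h | h <;> linarith
          · rw [hc, Real.log_zero]
        linarith
      rw [hLdef, hDdef, Lv, D1v, ← Real.rpow_sub hl0]; norm_num
    set θ := ζ / (33 / 10 * Real.log (lg n)) with hθ
    have hθ0 : 0 < θ := by positivity
    refine (mid_count hμ hμ1 hmass hn1 (by linarith) hDL hθ0 ?_ hζ hζ1 (by positivity) ?_ hdeg'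
      hU hcard hE n6 n7).trans ?_
    · rw [hθ, div_le_one (by positivity)]; linarith
    · have hl0 : 0 < lg n := by
        rcases (Real.log_natCast_nonneg n).lt_or_eq with h | h
        · exact h
        · exfalso
          rw [show lg n = 0 from h.symm, Real.log_zero] at hll
          linarith
      rw [hlr, ← Real.rpow_mul hl0.le, Real.rpow_def_of_pos hl0]
      congr 1
      rw [hθ]; field_simp
    · exact mul_le_mul_of_nonneg_right hε (m0_pos hn1 hD0).le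
  · rw [sum_push]
    exact (ev_le_init hμ hT0 fun G H hHG => badBalls_mono hHG _).trans hbad

end Vale.Agent.P046.Full.Two

namespace Vale.Agent.P046.Full

open Vale.Agent.P046

/-- The second phase. -/
theorem phaseTwo (h : CertTwoStmt) : PhaseTwoStmt := by
  rintro ⟨C, hC⟩
  refine ⟨2, fun ε hε => ?_⟩
  set ζ := min ε 1 / 14 with hζ
  have hζ0 : 0 < ζ := by have := lt_min hε one_pos; positivity
  obtain ⟨N₁, hN₁⟩ := hC ζ hζ0
  obtain ⟨N₂, hN₂⟩ := Filter.eventually_atTop.1 (Two.eventually_num (C := max C 0) hζ0)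
  refine ⟨max N₁ N₂, fun n hn => ?_⟩
  obtain ⟨μ, hμ⟩ := hN₁ n (le_trans (le_max_left _ _) hn)
  have hnum := hN₂ n (le_trans (le_max_right _ _) hn)
  refine ⟨_, Two.mid_of_early (μ := μ) h (le_max_right C 0) hζ0 (by linarith [min_le_right ε 1])
    (by linarith [min_le_left ε 1]) hnum ?_⟩
  obtain ⟨hn2, hD9, hDL, -⟩ := hnum
  have hL : 0 < Lv n := by linarith
  have hm := Two.m0_pos (by omega : 1 ≤ n) hL
  have hl : 0 ≤ lg n := Real.log_natCast_nonneg n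
  obtain ⟨h1, h2, h3, h4, h5, h6, h7, h8⟩ := hμ
  refine ⟨h1, h2, h3.trans ?_, h4.trans ?_, h5.trans ?_, h6, h7, h8⟩
  all_goals gcongr; exact le_max_left C 0

end Vale.Agent.P046.Full
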