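import Vale.Agent.P046.Full.Semi

/-!
P046, phase two: expectations along the process started from a law, the comparison principle in
mean, and the deterministic time scale.
-/

namespace Vale.Agent.P046.Full.Two

open Finset
open Vale.Agent.P046

variable {n : ℕ}

/-- The expectation of `f` at time `u` when the start is distributed as `μ`. -/
noncomputable def ev (μ : Gr n → ℝ) (u : ℝ) (f : Gr n → ℝ) : ℝ := ∑ G, μ G * expAt u f G

/-- The law at time `u`. -/
noncomputable def push (μ : Gr n → ℝ) (u : ℝ) (H : Gr n) : ℝ :=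
  ev μ u (fun K => if K = H then 1 else 0)

lemma rstep_subset (E : Finset (Fin n)) (G : Gr n) : rstep E G ⊆ G := by
  unfold rstep
  split_ifs
  · exact rem_subset G E
  · exact subset_rfl

lemma gen_rstep (f : Gr n → ℝ) (G : Gr n) :
    gen (rstep (n := n)) f G = ∑ E ∈ tri G, (f (rem G E) - f G) := by
  rw [gen_apply, ← sum_subset (s₁ := tri G) (subset_univ _)]
  · exact sum_congr rfl fun E hE => by simp [rstep, hE]
  · intro E _ hE; simp [rstep, hE]

lemma expAt_add (s t : ℝ) (f : Gr n → ℝ) (G : Gr n) :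
    expAt (s + t) f G = expAt s (expAt t f) G := by
  show semi (rstep (n := n)) (s + t) f G = semi (rstep (n := n)) s (semi (rstep (n := n)) t f) G
  rw [semi_add_apply]

lemma expAt_le_on {t : ℝ} (ht : 0 ≤ t) {f f' : Gr n → ℝ} {G : Gr n}
    (h : ∀ H, H ⊆ G → f H ≤ f' H) : expAt t f G ≤ expAt t f' G := by
  classical
  have hc : expAt t f G = expAt t (fun H => if H ⊆ G then f H else f' H) G :=
    semi_congr (rstep (n := n)) {H | H ⊆ G} (fun E H hH => (rstep_subset E H).trans hH) t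
      (fun H hH => by simp [Set.mem_ofPred_eq ▸ hH]) (subset_refl G : G ∈ {H | H ⊆ G})
  rw [hc]
  refine semi_mono (rstep (n := n)) ht (fun H => ?_) G
  split_ifs with hH
  · exact h H hH
  · exact le_rfl

lemma expAt_linear_sum {ι : Type*} (s : Finset ι) (t : ℝ) (c : ι → ℝ) (f : ι → Gr n → ℝ)
    (G : Gr n) :
    expAt t (fun H => ∑ i ∈ s, c i * f i H) G = ∑ i ∈ s, c i * expAt t (f i) G := by
  have h : (fun H => ∑ i ∈ s, c i * f i H) = ∑ i ∈ s, c i • f i := by
    funext H; simp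
  simp only [expAt, h, map_sum, map_smul, Finset.sum_apply, Pi.smul_apply, smul_eq_mul]

lemma expAt_eq_sum (t : ℝ) (f : Gr n → ℝ) (G : Gr n) :
    expAt t f G = ∑ H, f H * expAt t (fun K => if K = H then (1 : ℝ) else 0) G := by
  rw [← expAt_linear_sum]
  congr 1
  funext K
  simp [eq_comm]

lemma ev_zero (μ : Gr n → ℝ) (f : Gr n → ℝ) : ev μ 0 f = ∑ G, μ G * f G := by
  simp [ev, expAt, semi_zero]

lemma ev_add (μ : Gr n → ℝ) (u : ℝ) (f g : Gr n → ℝ) :
    ev μ u (fun H => f H + g H) = ev μ u f + ev μ u g := by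
  rw [ev, ev, ev, ← sum_add_distrib]
  refine sum_congr rfl fun G _ => ?_
  rw [show (fun H => f H + g H) = f + g from rfl]
  simp only [expAt, map_add, Pi.add_apply]
  ring

lemma ev_smul (μ : Gr n → ℝ) (u c : ℝ) (f : Gr n → ℝ) :
    ev μ u (fun H => c * f H) = c * ev μ u f := by
  rw [ev, ev, mul_sum]
  refine sum_congr rfl fun G _ => ?_
  rw [show (fun H => c * f H) = c • f from rfl]
  simp only [expAt, map_smul, Pi.smul_apply, smul_eq_mul]
  ring

lemma ev_const (μ : Gr n → ℝ) (u c : ℝ) : ev μ u (fun _ => c) = (∑ G, μ G) * c := by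
  rw [ev, sum_mul]
  refine sum_congr rfl fun G _ => ?_
  rw [expAt, semi_const]

/-- Monotonicity, only on the subgraphs of the support. -/
lemma ev_mono {μ : Gr n → ℝ} (hμ : ∀ G, 0 ≤ μ G) {u : ℝ} (hu : 0 ≤ u) {f f' : Gr n → ℝ}
    (h : ∀ G, μ G ≠ 0 → ∀ H, H ⊆ G → f H ≤ f' H) : ev μ u f ≤ ev μ u f' := by
  refine sum_le_sum fun G _ => ?_
  by_cases hG : μ G = 0
  · simp [hG]
  · exact mul_le_mul_of_nonneg_left (expAt_le_on hu (h G hG)) (hμ G)

lemma ev_nonneg {μ : Gr n → ℝ} (hμ : ∀ G, 0 ≤ μ G) {u : ℝ} (hu : 0 ≤ u) {f : Gr n → ℝ}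
    (h : ∀ G, μ G ≠ 0 → ∀ H, H ⊆ G → 0 ≤ f H) : 0 ≤ ev μ u f := by
  have := ev_mono hμ hu (f := fun _ => 0) h
  rwa [ev_const, mul_zero] at this

lemma sum_push (μ : Gr n → ℝ) (u : ℝ) (f : Gr n → ℝ) : ∑ H, push μ u H * f H = ev μ u f := by
  simp only [push, ev, sum_mul]
  rw [sum_comm]
  refine sum_congr rfl fun G _ => ?_
  rw [expAt_eq_sum u f G, mul_sum]
  exact sum_congr rfl fun H _ => by ring

/-- The comparison principle in mean. -/
lemma ev_le_of_drift (μ : Gr n → ℝ) {b : ℝ} (hb : 0 ≤ b) (F F' : ℝ → Gr n → ℝ)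
    (hd : ∀ u ∈ Set.Icc 0 b, ∀ G, HasDerivAt (fun v => F v G) (F' u G) u)
    (hdr : ∀ u ∈ Set.Icc 0 b,
      ev μ u (fun G => F' u G + gen (rstep (n := n)) (F u) G) ≤ 0) :
    ev μ b (F b) ≤ ∑ G, μ G * F 0 G := by
  have hder : ∀ u ∈ Set.Icc 0 b, HasDerivAt (fun v => ev μ v (F v))
      (ev μ u (fun G => F' u G + gen (rstep (n := n)) (F u) G)) u := by
    intro u hu
    refine HasDerivAt.fun_sum fun G _ => ?_
    have hF : HasDerivAt (fun v => F v) (fun H => F' u H) u := hasDerivAt_pi.2 fun H => hd u hu H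
    have h := (semi_hasDerivAt (rstep (n := n)) u).clm_apply hF
    have h' := (ContinuousLinearMap.proj (R := ℝ) (φ := fun _ : Gr n => ℝ) G).hasFDerivAt
      |>.comp_hasDerivAt u h
    refine (h'.congr_deriv ?_).const_mul (μ G)
    change (semi rstep u (gen rstep (F u)) + semi rstep u (fun H => F' u H)) G = _
    rw [← map_add, add_comm]
    rfl
  have hanti : AntitoneOn (fun v => ev μ v (F v)) (Set.Icc 0 b) :=
    antitoneOn_of_hasDerivWithinAt_nonpos (convex_Icc 0 b)
      (fun u hu => (hder u hu).continuousAt.continuousWithinAt)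
      (fun u hu => (hder u (interior_subset hu)).hasDerivWithinAt)
      (fun u hu => hdr u (interior_subset hu))
  exact (hanti (Set.left_mem_Icc.2 hb) (Set.right_mem_Icc.2 hb) hb).trans_eq (ev_zero μ _)

/-! ### The time scale -/

/-- The predicted codegree `u` after the one at which it equals `L`. -/
noncomputable def Dof (L u : ℝ) : ℝ := L / (1 + 2 * L * u)

/-- The length of the phase between the codegrees `L` and `D`. -/
noncomputable def Tof (L D : ℝ) : ℝ := (1 / D - 1 / L) / 2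

lemma Dof_zero (L : ℝ) : Dof L 0 = L := by simp [Dof]

variable {L D₁ u : ℝ}

lemma Dof_pos (hL : 0 < L) (hu : 0 ≤ u) : 0 < Dof L u := by
  unfold Dof; positivity

lemma Dof_le (hL : 0 < L) (hu : 0 ≤ u) : Dof L u ≤ L := by
  unfold Dof
  exact div_le_self hL.le (by nlinarith)

lemma le_Dof (hL : 0 < L) (hD : 0 < D₁) (hu : u ∈ Set.Icc 0 (Tof L D₁)) : D₁ ≤ Dof L u := by
  unfold Dof
  rw [le_div_iff₀ (by have := hu.1; positivity)]
  have h := hu.2
  unfold Tof at h
  rw [div_sub_div _ _ hD.ne' hL.ne', le_div_iff₀ (by norm_num), le_div_iff₀ (by positivity)] at h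
  linarith

lemma Dof_Tof (hL : 0 < L) (hD : 0 < D₁) : Dof L (Tof L D₁) = D₁ := by
  have hL' := hL.ne'
  have hD' := hD.ne'
  have h : 1 + 2 * L * ((1 / D₁ - 1 / L) / 2) = L / D₁ := by field_simp; ring
  rw [Dof, Tof, h, div_div_cancel₀ hL']

lemma Tof_nonneg (hD : 0 < D₁) (h : D₁ ≤ L) : 0 ≤ Tof L D₁ := by
  unfold Tof
  have := one_div_le_one_div_of_le hD h
  linarith

lemma hasDerivAt_Dof (hL : 0 < L) (hu : 0 ≤ u) :
    HasDerivAt (Dof L) (-2 * Dof L u ^ 2) u := by
  have h1 : HasDerivAt (fun v => 1 + 2 * L * v) (2 * L) u := by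
    simpa using ((hasDerivAt_id u).const_mul (2 * L)).const_add 1
  have hp : (0 : ℝ) < 1 + 2 * L * u := by positivity
  refine ((hasDerivAt_const u L).div h1 hp.ne').congr_deriv ?_
  unfold Dof
  field_simp
  ring

lemma hasDerivAt_Dof_rpow (hL : 0 < L) (hu : 0 ≤ u) (a : ℝ) :
    HasDerivAt (fun v => Dof L v ^ a) (-(2 * a * Dof L u) * Dof L u ^ a) u := by
  have hp := Dof_pos hL hu
  refine ((hasDerivAt_Dof hL hu).rpow_const (p := a) (Or.inl hp.ne')).congr_deriv ?_
  rw [Real.rpow_sub_one hp.ne']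
  field_simp

lemma Dof_mul (hL : 0 < L) (hu : 0 ≤ u) : 2 * u * Dof L u = 1 - Dof L u / L := by
  have : (0 : ℝ) < 1 + 2 * L * u := by positivity
  unfold Dof
  field_simp
  ring

end Vale.Agent.P046.Full.Two
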