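import Vale.Agent.P046.CertII
import Vale.Agent.P046.Full.Two.Final

/-!
P046, phase two: the certificate in the form used by the drift, and the phase unconditionally.
-/

namespace Vale.Agent.P046.Full

open Vale.Agent.P046

/-- The real inequality behind the second phase holds. -/
theorem certTwoStmt_proved : CertTwoStmt := by
  intro a b c ha hb hc
  have h := certII a b c ha hb hc
  simp only [Two.deriv_psiU]
  simp only [psiU, Two.psiU', psi4, psi4'] at h ⊢
  linarith

/-- The second phase, with its certificate. -/
theorem phaseTwo_proved : PhaseTwoStmt := phaseTwo certTwoStmt_proved

end Vale.Agent.P046.Full
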