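import Vale.Agent.P046.Full.Base

/-!
P046, phase two: the triangles at an edge, its neighbours, and what one removal does to them.
-/

namespace Vale.Agent.P046.Full.Two

open Finset
open Vale.Agent.P046

variable {n : ℕ}

/-- The triangles through `g`. -/
def triAt (G : Gr n) (g : Finset (Fin n)) : Finset (Finset (Fin n)) :=
  (tri G).filter (fun E => g ∈ sides E)

/-- The other two edges of `F`. -/
def others (F g : Finset (Fin n)) : Finset (Finset (Fin n)) := (sides F).erase g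

lemma mem_triAt {G : Gr n} {g E : Finset (Fin n)} :
    E ∈ triAt G g ↔ E ∈ tri G ∧ g ∈ sides E := mem_filter

lemma deg_eq (G : Gr n) (g : Finset (Fin n)) : deg G g = (triAt G g).card := rfl

lemma card_others {G : Gr n} {g F : Finset (Fin n)} (hF : F ∈ triAt G g) :
    (others F g).card = 2 := by
  obtain ⟨h1, h2⟩ := mem_triAt.1 hF
  rw [others, card_erase_of_mem h2, card_sides (mem_tri.1 h1).1]

lemma tri_mono {H G : Gr n} (h : H ⊆ G) : tri H ⊆ tri G := fun _ hE =>
  mem_tri.2 ⟨(mem_tri.1 hE).1, (mem_tri.1 hE).2.trans h⟩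

lemma deg_mono {H G : Gr n} (h : H ⊆ G) (g : Finset (Fin n)) : deg H g ≤ deg G g :=
  card_le_card (filter_subset_filter _ (tri_mono h))

lemma sum_triAt_swap {β : Type*} [AddCommMonoid β] (G : Gr n)
    (h : Finset (Fin n) → Finset (Fin n) → β) :
    ∑ g ∈ G, ∑ F ∈ triAt G g, h g F = ∑ F ∈ tri G, ∑ g ∈ sides F, h g F := by
  refine sum_comm' fun g F => ?_
  simp only [mem_triAt]
  exact ⟨fun ⟨_, hF, hg⟩ => ⟨hg, hF⟩, fun ⟨hg, hF⟩ => ⟨(mem_tri.1 hF).2 hg, hF, hg⟩⟩

lemma nbrs_eq (G : Gr n) (g : Finset (Fin n)) :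
    nbrs G g = (triAt G g).biUnion (fun F => others F g) := by
  ext f
  simp only [nbrs, mem_filter, mem_biUnion, mem_triAt, others, mem_erase]
  constructor
  · rintro ⟨-, hne, E, hE, hg, hf⟩
    exact ⟨E, ⟨hE, hg⟩, hne, hf⟩
  · rintro ⟨E, ⟨hE, hg⟩, hne, hf⟩
    exact ⟨(mem_tri.1 hE).2 hf, hne, E, hE, hg, hf⟩

lemma others_disjoint (G : Gr n) (g : Finset (Fin n)) :
    (triAt G g : Set (Finset (Fin n))).PairwiseDisjoint (fun F => others F g) := by
  intro E hE F hF hne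
  rw [Finset.mem_coe, mem_triAt] at hE hF
  simp only [Function.onFun, disjoint_left, others, mem_erase]
  intro f h1 h2
  exact h1.1 (shared_unique (mem_tri.1 hE.1).1 (mem_tri.1 hF.1).1 hne h1.2 h2.2 hE.2 hF.2)

lemma sum_nbrs {β : Type*} [AddCommMonoid β] (G : Gr n) (g : Finset (Fin n))
    (φ : Finset (Fin n) → β) :
    ∑ f ∈ nbrs G g, φ f = ∑ F ∈ triAt G g, ∑ f ∈ others F g, φ f := by
  rw [nbrs_eq, sum_biUnion (others_disjoint G g)]

lemma card_nbrs (G : Gr n) (g : Finset (Fin n)) : (nbrs G g).card = 2 * deg G g := by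
  rw [nbrs_eq, card_biUnion (others_disjoint G g),
    sum_congr rfl (fun F hF => card_others hF), sum_const, smul_eq_mul, Nat.mul_comm]
  rfl

lemma nbrs_mem {G : Gr n} {g f : Finset (Fin n)} (h : f ∈ nbrs G g) : f ∈ G ∧ f ≠ g :=
  ⟨(mem_filter.1 h).1, (mem_filter.1 h).2.1⟩

lemma nbrs_symm {G : Gr n} {g f : Finset (Fin n)} (hg : g ∈ G) (h : f ∈ nbrs G g) :
    g ∈ nbrs G f := by
  obtain ⟨-, hne, E, hE, h1, h2⟩ := mem_filter.1 h
  exact mem_filter.2 ⟨hg, hne.symm, E, hE, h2, h1⟩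

lemma sum_nbrs_swap (G : Gr n) (φ : Finset (Fin n) → Finset (Fin n) → ℝ) :
    ∑ g ∈ G, ∑ f ∈ nbrs G g, φ g f = ∑ f ∈ G, ∑ g ∈ nbrs G f, φ g f := by
  refine sum_comm' fun g f => ?_
  constructor
  · rintro ⟨hg, hf⟩
    exact ⟨nbrs_symm hg hf, (nbrs_mem hf).1⟩
  · rintro ⟨hg, hf⟩
    exact ⟨(nbrs_mem hg).1, nbrs_symm hf hg⟩

lemma sum_nbrs_fun (G : Gr n) (φ : Finset (Fin n) → ℝ) :
    ∑ g ∈ G, ∑ f ∈ nbrs G g, φ f = ∑ f ∈ G, 2 * (deg G f : ℝ) * φ f := by
  rw [sum_nbrs_swap]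
  refine sum_congr rfl fun f _ => ?_
  rw [sum_const, card_nbrs, nsmul_eq_mul]
  push_cast
  ring

lemma triAt_rem (G : Gr n) (E g : Finset (Fin n)) :
    triAt (rem G E) g = (triAt G g).filter (fun F => Disjoint (sides F) (sides E)) := by
  ext F
  simp only [triAt, tri_rem, mem_filter]
  tauto

/-- What the removals avoiding `g` do to its triangles. -/
lemma sum_lost_triAt (G : Gr n) (g : Finset (Fin n)) :
    (∑ E ∈ (tri G).filter (fun E => g ∉ sides E), (lost G g E : ℝ)) =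
      ∑ F ∈ triAt G g, ((∑ f ∈ others F g, (deg G f : ℝ)) - 2) := by
  have h := congrArg (Nat.cast (R := ℝ)) (sum_lost (G := G) (g := g))
  rw [Nat.cast_add, Nat.cast_sum, Nat.cast_sum, Nat.cast_sum] at h
  have h2 : ∀ F ∈ triAt G g, ((∑ f ∈ others F g, (deg G f : ℝ)) - 2) =
      (sdeg G F : ℝ) - (((deg G g + 2 : ℕ)) : ℝ) := by
    intro F hF
    rw [sdeg, Nat.cast_sum, ← sum_erase_add _ _ (mem_triAt.1 hF).2, others]
    push_cast
    ring
  rw [sum_congr rfl h2, sum_sub_distrib]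
  simp only [triAt]
  linarith

/-- The removals that kill a given triangle `F` at `g` and spare `g`. -/
def killers (G : Gr n) (g F : Finset (Fin n)) : Finset (Finset (Fin n)) :=
  (tri G).filter (fun E => g ∉ sides E ∧ ¬Disjoint (sides F) (sides E))

lemma card_killers {G : Gr n} {g F : Finset (Fin n)} (hF : F ∈ triAt G g) :
    ((killers G g F).card : ℝ) = (∑ f ∈ others F g, (deg G f : ℝ)) - 2 := by
  obtain ⟨hFt, hgF⟩ := mem_triAt.1 hF
  have hFc := (mem_tri.1 hFt).1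
  have hset : killers G g F = (others F g).biUnion (fun f => (triAt G f).erase F) := by
    ext D
    simp only [killers, mem_filter, mem_biUnion, mem_erase, not_disjoint_iff, others, mem_triAt]
    constructor
    · rintro ⟨hD, hgD, f, hfF, hfD⟩
      exact ⟨f, ⟨fun h => hgD (h ▸ hfD), hfF⟩, fun h => hgD (h ▸ hgF), hD, hfD⟩
    · rintro ⟨f, ⟨hfg, hfF⟩, hDF, hD, hfD⟩
      exact ⟨hD, fun h => hfg (shared_unique (mem_tri.1 hD).1 hFc hDF hfD hfF h hgF),
        f, hfF, hfD⟩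
  rw [hset, card_biUnion, Nat.cast_sum]
  · have h3 : ∀ f ∈ others F g, (((triAt G f).erase F).card : ℝ) = (deg G f : ℝ) - 1 := by
      intro f hf
      have h := card_erase_add_one (mem_triAt.2 ⟨hFt, (mem_erase.1 hf).2⟩ : F ∈ triAt G f)
      rw [← deg_eq] at h
      rw [← h]; push_cast; ring
    rw [sum_congr rfl h3, sum_sub_distrib, sum_const, card_others hF]
    simp
  · intro f hf f' hf' hne
    simp only [Function.onFun, disjoint_left, mem_erase, mem_triAt]
    intro D h1 h2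
    exact hne (shared_unique (mem_tri.1 h1.2.1).1 hFc h1.1 h1.2.2 (mem_erase.1 hf).2 h2.2.2
      (mem_erase.1 hf').2)

/-- The triangles at `g` killed by `E`. -/
def killed (G : Gr n) (g E : Finset (Fin n)) : Finset (Finset (Fin n)) :=
  (triAt G g).filter (fun F => ¬Disjoint (sides F) (sides E))

lemma card_killed_le {G : Gr n} {g E : Finset (Fin n)} (hE : E ∈ tri G) (hg : g ∉ sides E) :
    (killed G g E).card ≤ 2 := by
  refine le_trans (card_le_card ?_) (lost_le_two hE hg)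
  intro F hF
  simp only [killed, triAt, mem_filter] at hF ⊢
  exact ⟨hF.1.1, hF.1.2, hF.2⟩

/-- Each lost triangle at `f` contains an edge of `E` that is a neighbour of `f`. -/
lemma lost_le_sides {G : Gr n} {f E : Finset (Fin n)} (hf : f ∉ sides E) :
    lost G f E ≤ ((sides E).filter (fun e => e ∈ nbrs G f)).card := by
  classical
  set T := (tri G).filter (fun F => f ∈ sides F ∧ ¬Disjoint (sides F) (sides E)) with hT
  have hch : ∀ F ∈ T,
      ∃ e, e ∈ sides E ∧ e ∈ sides F := by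
    intro F hF
    obtain ⟨e, h1, h2⟩ := not_disjoint_iff.1 (mem_filter.1 hF).2.2
    exact ⟨e, h2, h1⟩
  choose pick h1 h2 using hch
  show T.card ≤ _
  refine card_le_card_of_injOn (fun F => if h : F ∈ T then pick F h else f) ?_ ?_
  · intro F hF
    rw [Finset.mem_coe] at hF
    simp only [dif_pos hF]
    refine Finset.mem_coe.2 (mem_filter.2 ?_)
    have hne : pick F hF ≠ f := fun h => hf (h ▸ h1 F hF)
    exact ⟨h1 F hF, mem_filter.2 ⟨(mem_tri.1 (mem_filter.1 hF).1).2 (h2 F hF), hne, F,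
      (mem_filter.1 hF).1, (mem_filter.1 hF).2.1, h2 F hF⟩⟩
  · intro F hF F' hF' heq
    rw [Finset.mem_coe] at hF hF'
    simp only [dif_pos hF, dif_pos hF'] at heq
    by_contra hne
    refine hf ?_
    have h := shared_unique (mem_tri.1 (mem_filter.1 hF).1).1 (mem_tri.1 (mem_filter.1 hF').1).1
      hne (mem_filter.1 hF).2.1 (mem_filter.1 hF').2.1 (h2 F hF) (heq ▸ h2 F' hF')
    exact h ▸ h1 F hF

lemma xg_rem (D : ℝ) (G : Gr n) (g E : Finset (Fin n)) :
    xg D (rem G E) g = xg D G g - (lost G g E : ℝ) / D := by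
  rw [xg, xg, ← deg_rem_add_lost G g E]
  push_cast
  ring

lemma deg_eq_xg {D : ℝ} (hD : D ≠ 0) (G : Gr n) (g : Finset (Fin n)) :
    (deg G g : ℝ) = D * (1 + xg D G g) := by
  rw [xg]; field_simp; ring

lemma neg_one_le_xg {D : ℝ} (hD : 0 ≤ D) (G : Gr n) (g : Finset (Fin n)) : -1 ≤ xg D G g := by
  rw [xg]
  have : 0 ≤ (deg G g : ℝ) / D := by positivity
  linarith

/-- The generator on a sum over the edges. -/
lemma gen_edge_sum (φ : Gr n → Finset (Fin n) → ℝ) (G : Gr n) :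
    ∑ E ∈ tri G, (∑ g ∈ rem G E, φ (rem G E) g - ∑ g ∈ G, φ G g) =
      ∑ g ∈ G, ((∑ E ∈ (tri G).filter (fun E => g ∉ sides E), (φ (rem G E) g - φ G g)) -
        (deg G g : ℝ) * φ G g) := by
  have h1 : ∀ E ∈ tri G, ∑ g ∈ rem G E, φ (rem G E) g - ∑ g ∈ G, φ G g =
      ∑ g ∈ G, if g ∈ sides E then -φ G g else φ (rem G E) g - φ G g := by
    intro E _
    rw [rem, ← filter_notMem_eq_sdiff, sum_filter, ← sum_sub_distrib]
    exact sum_congr rfl fun g _ => by by_cases h : g ∈ sides E <;> simp [h]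
  rw [sum_congr rfl h1, sum_comm]
  refine sum_congr rfl fun g _ => ?_
  rw [sum_ite, sum_const, nsmul_eq_mul, deg]
  ring

end Vale.Agent.P046.Full.Two
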