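import Vale.Agent.P046.Full.Two.DriftU

/-!
P046, phase two: the number of edges follows the prediction.
-/

namespace Vale.Agent.P046.Full.Two

open Finset
open Vale.Agent.P046

variable {n : ℕ}

lemma m0_eq {D : ℝ} (n : ℕ) :
    m0 n D = (n : ℝ) * Real.sqrt n / 2 * D ^ (1 / 2 : ℝ) := by
  rw [m0, Real.sqrt_eq_rpow D]; ring

lemma m0_pos {D : ℝ} (hn : 1 ≤ n) (hD : 0 < D) : 0 < m0 n D := by
  have : (0 : ℝ) < n := by exact_mod_cast hn
  unfold m0
  have := Real.sqrt_pos.2 this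
  have := Real.sqrt_pos.2 hD
  positivity

lemma m0_ge {D : ℝ} (hn : 1 ≤ n) (hD : 1 ≤ D) : (n : ℝ) * Real.sqrt n / 2 ≤ m0 n D := by
  have h : 1 ≤ Real.sqrt D := by rwa [Real.one_le_sqrt]
  have h0 : 0 ≤ (n : ℝ) * Real.sqrt n / 2 := by positivity
  rw [m0]
  nlinarith

/-- The smoothed relative error of the count. -/
noncomputable def phiZ (η D : ℝ) (H : Gr n) : ℝ :=
  Real.sqrt (((H.card : ℝ) / m0 n D - 1) ^ 2 + η ^ 2)

lemma phiZ_le {η : ℝ} (hη : 0 < η) (D : ℝ) (H : Gr n) :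
    phiZ η D H ≤ |(H.card : ℝ) / m0 n D - 1| + η := by
  rw [phiZ, Real.sqrt_le_iff]
  have h0 := abs_nonneg ((H.card : ℝ) / m0 n D - 1)
  refine ⟨by linarith, ?_⟩
  nlinarith [sq_abs ((H.card : ℝ) / m0 n D - 1), mul_nonneg h0 hη.le]

lemma abs_le_phiZ {η : ℝ} (D : ℝ) (H : Gr n) : |(H.card : ℝ) / m0 n D - 1| ≤ phiZ η D H :=
  Real.le_sqrt_of_sq_le (by rw [sq_abs]; exact le_add_of_nonneg_right (sq_nonneg η))

lemma sqrt_step {η z h : ℝ} (hη : 0 < η) :
    Real.sqrt ((z + h) ^ 2 + η ^ 2) ≤ Real.sqrt (z ^ 2 + η ^ 2) +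
      z / Real.sqrt (z ^ 2 + η ^ 2) * h + h ^ 2 / (2 * η) := by
  set r := Real.sqrt (z ^ 2 + η ^ 2) with hr
  have hrη : η ≤ r := Real.le_sqrt_of_sq_le (le_add_of_nonneg_left (sq_nonneg z))
  have hr0 : 0 < r := lt_of_lt_of_le hη hrη
  have hr2 : r ^ 2 = z ^ 2 + η ^ 2 := Real.sq_sqrt (by positivity)
  have h1 : Real.sqrt ((z + h) ^ 2 + η ^ 2) ≤ r + z / r * h + h ^ 2 / (2 * r) := by
    have e : r + z / r * h + h ^ 2 / (2 * r) = (r ^ 2 + ((z + h) ^ 2 + η ^ 2)) / (2 * r) := by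
      field_simp; linear_combination hr2
    rw [e, le_div_iff₀ (by positivity)]
    have := Real.sq_sqrt (show (0 : ℝ) ≤ (z + h) ^ 2 + η ^ 2 by positivity)
    nlinarith [sq_nonneg (r - Real.sqrt ((z + h) ^ 2 + η ^ 2))]
  have h2 : h ^ 2 / (2 * r) ≤ h ^ 2 / (2 * η) :=
    div_le_div_of_nonneg_left (sq_nonneg h) (by positivity) (by linarith)
  linarith

/-- The drift of the weighted count. -/
lemma count_drift {L D θ η k₁ k₂ : ℝ} (hn : 1 ≤ n) (hD : 1 ≤ D) (hθ : 0 < θ) (hθ1 : θ ≤ 1)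
    (hη : 0 < η) (hL : 0 ≤ L) (H : Gr n) (hdeg : ∀ g ∈ H, (deg H g : ℝ) ≤ 2 * L) :
    -(2 * θ * D) * D ^ θ * (phiZ η D H + 1) +
      D ^ θ * (((H.card : ℝ) / m0 n D - 1) / phiZ η D H * ((H.card : ℝ) / m0 n D * D)) - k₁ +
      gen (rstep (n := n)) (fun K => D ^ θ * (phiZ η D K + 1) - k₂) H ≤
    (D ^ θ * (10 / θ ^ 3 * D / m0 n D)) * potU D H +
      ((D ^ θ * (12 * L / (η * (n : ℝ) ^ 3))) * (H.card : ℝ) + -k₁) := by
  have hn0 : (0 : ℝ) < n := by exact_mod_cast hn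
  have hDu : 0 < D := by linarith
  have hw0 : 0 ≤ D ^ θ := Real.rpow_nonneg hDu.le _
  set m := m0 n D with hm
  have hm0 : 0 < m := m0_pos hn hDu
  have hmge : (n : ℝ) * Real.sqrt n / 2 ≤ m := m0_ge hn hD
  set z := (H.card : ℝ) / m - 1 with hz
  set r := phiZ η D H with hr
  have hrη : η ≤ r := Real.le_sqrt_of_sq_le (le_add_of_nonneg_left (sq_nonneg _))
  have hr0 : 0 < r := lt_of_lt_of_le hη hrη
  have hzr : |z / r| ≤ 1 := by
    rw [abs_div, abs_of_pos hr0, div_le_one hr0]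
    exact Real.le_sqrt_of_sq_le (by rw [sq_abs]; exact le_add_of_nonneg_right (sq_nonneg η))
  -- the jumps
  have hg : gen (rstep (n := n)) (fun K => D ^ θ * (phiZ η D K + 1) -
      k₂) H ≤
      D ^ θ * (z / r * (-(D * (H.card : ℝ) + D * ∑ g ∈ H, xg D H g) / m) +
        12 * L / (η * (n : ℝ) ^ 3) * (H.card : ℝ)) := by
    rw [gen_rstep]
    have h1 : ∀ E ∈ tri H, D ^ θ * (phiZ η D (rem H E) + 1) -
          k₂ -
        (D ^ θ * (phiZ η D H + 1) -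
          k₂) ≤
        D ^ θ * (z / r * (-3 / m) + (3 / m) ^ 2 / (2 * η)) := by
      intro E hE
      have hc : (((rem H E).card : ℝ)) / m - 1 = z + -3 / m := by
        have := congrArg (Nat.cast (R := ℝ)) (card_rem hE)
        push_cast at this
        rw [hz, ← this]; ring
      have h := sqrt_step (z := z) (h := -3 / m) hη
      rw [← hc] at h
      have h' : phiZ η D (rem H E) ≤ r + z / r * (-3 / m) + (3 / m) ^ 2 / (2 * η) := by
        refine le_of_eq_of_le rfl (h.trans_eq ?_)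
        rw [hr, phiZ]; ring
      nlinarith [mul_le_mul_of_nonneg_left h' hw0]
    refine (sum_le_sum h1).trans ?_
    rw [sum_const, nsmul_eq_mul]
    have htri : 3 * ((tri H).card : ℝ) = D * (H.card : ℝ) + D * ∑ g ∈ H, xg D H g := by
      rw [← sum_deg_xg hDu.ne', ← Nat.cast_sum, sum_deg]; push_cast; ring
    have htri2 : 3 * ((tri H).card : ℝ) ≤ 2 * L * (H.card : ℝ) := by
      have : (∑ g ∈ H, (deg H g : ℝ)) ≤ ∑ g ∈ H, 2 * L := sum_le_sum fun g hg =>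
        hdeg g hg
      rw [← Nat.cast_sum, sum_deg, sum_const, nsmul_eq_mul] at this
      push_cast at this
      linarith
    have hm2 : (n : ℝ) ^ 3 / 4 ≤ m ^ 2 := by
      refine le_trans (le_of_eq ?_) (pow_le_pow_left₀ (by positivity) hmge 2)
      rw [div_pow, mul_pow, Real.sq_sqrt hn0.le]; ring
    have h3 : ((tri H).card : ℝ) * ((3 / m) ^ 2 / (2 * η)) ≤
        12 * L / (η * (n : ℝ) ^ 3) * (H.card : ℝ) := by
      calc ((tri H).card : ℝ) * ((3 / m) ^ 2 / (2 * η))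
          = 3 * ((tri H).card : ℝ) * (3 / (2 * η)) / m ^ 2 := by ring
        _ ≤ 2 * L * (H.card : ℝ) * (3 / (2 * η)) / ((n : ℝ) ^ 3 / 4) := by gcongr
        _ = _ := by field_simp; ring
    have e : ((tri H).card : ℝ) * (D ^ θ * (z / r * (-3 / m) + (3 / m) ^ 2 / (2 * η))) =
        D ^ θ * (z / r * (-(3 * ((tri H).card : ℝ)) / m) +
          ((tri H).card : ℝ) * ((3 / m) ^ 2 / (2 * η))) := by ring
    rw [e, htri]
    gcongr
  have hS : |∑ g ∈ H, xg D H g| ≤ θ * (H.card : ℝ) + 10 / θ ^ 3 * potU D H := by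
    refine (abs_sum_le_sum_abs _ _).trans ((sum_le_sum fun g _ =>
      abs_le_psiU hθ hθ1 (xg D H g)).trans (le_of_eq ?_))
    rw [sum_add_distrib, sum_const, nsmul_eq_mul, ← mul_sum, potU]; ring
  have hzS : -(z / r * (∑ g ∈ H, xg D H g)) ≤ |∑ g ∈ H, xg D H g| := by
    refine (neg_le_abs _).trans ?_
    rw [abs_mul]
    exact mul_le_of_le_one_left (abs_nonneg _) hzr
  have hzz : (H.card : ℝ) / m ≤ r + 1 := by
    have : z ≤ r := (le_abs_self z).trans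
      (Real.le_sqrt_of_sq_le (by rw [sq_abs]; exact le_add_of_nonneg_right (sq_nonneg η)))
    linarith
  have hfin : -(2 * θ * D) * (r + 1) + z / r * ((H.card : ℝ) / m * D) +
      z / r * (-(D * (H.card : ℝ) + D * ∑ g ∈ H, xg D H g) / m) ≤
      10 / θ ^ 3 * D / m * potU D H := by
    have e : z / r * ((H.card : ℝ) / m * D) +
        z / r * (-(D * (H.card : ℝ) + D * ∑ g ∈ H, xg D H g) / m) =
        D / m * -(z / r * (∑ g ∈ H, xg D H g)) := by ring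
    have h1 := mul_le_mul_of_nonneg_left (hzS.trans hS) (by positivity : (0 : ℝ) ≤ D / m)
    have h2 := mul_le_mul_of_nonneg_left hzz (by positivity : (0 : ℝ) ≤ θ * D)
    have h3 : 0 ≤ θ * D * (r + 1) := by positivity
    linarith [show D / m * (θ * (H.card : ℝ)) = θ * D * ((H.card : ℝ) / m) by ring,
      show D / m * (10 / θ ^ 3 * potU D H) = 10 / θ ^ 3 * D / m * potU D H by ring]
  have h4 := mul_le_mul_of_nonneg_left hfin hw0
  linarith

lemma hasDerivAt_phiZ {L u η : ℝ} (hn : 1 ≤ n) (hL : 0 < L) (hu : 0 ≤ u) (hη : 0 < η)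
    (H : Gr n) :
    HasDerivAt (fun v => phiZ η (Dof L v) H)
      (((H.card : ℝ) / m0 n (Dof L u) - 1) / phiZ η (Dof L u) H *
        ((H.card : ℝ) / m0 n (Dof L u) * Dof L u)) u := by
  have hDu := Dof_pos hL hu
  have hm : HasDerivAt (fun v => (H.card : ℝ) / m0 n (Dof L v) - 1)
      ((H.card : ℝ) / m0 n (Dof L u) * Dof L u) u := by
    have h1 : HasDerivAt (fun v => m0 n (Dof L v)) (-(Dof L u) * m0 n (Dof L u)) u := by
      simp only [m0_eq]
      refine ((hasDerivAt_Dof_rpow hL hu (1 / 2)).const_mul _).congr_deriv ?_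
      ring
    have hm0 := (m0_pos hn hDu).ne'
    refine (((hasDerivAt_const u (H.card : ℝ)).div h1 hm0).sub_const 1).congr_deriv ?_
    field_simp; ring
  refine (((hm.fun_pow 2).add_const (η ^ 2)).sqrt (by positivity)).congr_deriv ?_
  unfold phiZ
  push_cast
  field_simp

/-- The algebra after the comparison. -/
lemma count_finish {L D₁ θ η B R R' T P S E0 : ℝ} (hD : 1 ≤ D₁) (hDL : D₁ ≤ L) (hθ : 0 < θ)
    (hB : 0 ≤ B) (hR0 : 0 ≤ R) (hT0 : 0 ≤ T) (hT1 : T ≤ 1) (hμ1 : S ≤ 1)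
    (main : D₁ ^ θ * (P + S) -
        S * (10 / θ ^ 3 * B / pU * L ^ θ * D₁ ^ (-pU) + 2 * L ^ θ * R * T) ≤
      L ^ θ * (E0 + η + S)) (h4 : 2 * R = R') :
    P ≤ ((L / D₁) ^ θ - 1) + (L / D₁) ^ θ *
        (E0 + η + 10 / θ ^ 3 * B * D₁ ^ (-pU) + R') := by
  have hD0 : 0 < D₁ := by linarith
  have hL : 0 < L := by linarith
  have hp : (0 : ℝ) < pU := by norm_num [pU]
  have hrat : 1 ≤ (L / D₁) ^ θ :=
    Real.one_le_rpow (by rw [le_div_iff₀ hD0]; linarith) hθ.le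
  have hk1 : 0 ≤ 10 / θ ^ 3 * B * D₁ ^ (-pU) := by positivity
  have hd : 0 < D₁ ^ θ := Real.rpow_pos_of_pos hD0 _
  have hl : 0 ≤ L ^ θ := Real.rpow_nonneg hL.le _
  have hneg : S * (10 / θ ^ 3 * B / pU * L ^ θ * D₁ ^ (-pU) + 2 * L ^ θ * R * T) ≤
      L ^ θ * (10 / θ ^ 3 * B * D₁ ^ (-pU) + 2 * R) := by
    have h1 : 10 / θ ^ 3 * B / pU * L ^ θ * D₁ ^ (-pU) ≤
        L ^ θ * (10 / θ ^ 3 * B * D₁ ^ (-pU)) := by
      rw [show 10 / θ ^ 3 * B / pU * L ^ θ * D₁ ^ (-pU) =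
        L ^ θ * (10 / θ ^ 3 * B * D₁ ^ (-pU)) / pU by ring]
      exact div_le_self (by positivity) (by norm_num [pU])
    have h2 : 2 * L ^ θ * R * T ≤ 2 * L ^ θ * R := mul_le_of_le_one_right (by positivity) hT1
    refine (mul_le_of_le_one_left (by positivity) hμ1).trans ?_
    linarith
  have h1 : D₁ ^ θ * (P + S) ≤ L ^ θ * (E0 + η + S + 10 / θ ^ 3 * B * D₁ ^ (-pU) + 2 * R) := by
    linarith
  have h2 : P + S ≤ (L / D₁) ^ θ * (E0 + η + S + 10 / θ ^ 3 * B * D₁ ^ (-pU) + 2 * R) := by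
    rw [Real.div_rpow hL.le hD0.le, div_mul_eq_mul_div, le_div_iff₀ hd]
    linarith
  have h3 : 0 ≤ ((L / D₁) ^ θ - 1) * (1 - S) := mul_nonneg (by linarith) (by linarith)
  rw [← h4]
  linarith

/-- The potential at the start. -/
lemma count_init {μ : Gr n → ℝ} (hμ : ∀ G, 0 ≤ μ G) (hμ1 : ∑ G, μ G ≤ 1) {L θ η k c : ℝ}
    (hη : 0 < η) (hL : 0 ≤ L) (hk : 0 ≤ k) :
    ∑ G, μ G * (L ^ θ * (phiZ η L G + 1) - (k + c * 0)) ≤
      L ^ θ * ((∑ G, μ G * |(G.card : ℝ) / m0 n L - 1|) + η + ∑ G, μ G) := by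
  have h1 : ∀ G ∈ (univ : Finset (Gr n)), μ G * (L ^ θ * (phiZ η L G + 1) - (k + c * 0)) ≤
      L ^ θ * (μ G * |(G.card : ℝ) / m0 n L - 1| + η * μ G + μ G) := by
    intro G _
    have h2 := mul_le_mul_of_nonneg_left (phiZ_le hη L G)
      (mul_nonneg (hμ G) (Real.rpow_nonneg hL θ))
    have h3 := mul_nonneg (hμ G) hk
    linarith
  refine (sum_le_sum h1).trans ?_
  rw [← mul_sum, sum_add_distrib, sum_add_distrib, ← mul_sum]
  refine mul_le_mul_of_nonneg_left ?_ (Real.rpow_nonneg hL θ)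
  have := mul_le_of_le_one_right hη.le hμ1
  linarith

lemma ev_count_le {μ : Gr n → ℝ} (hμ : ∀ G, 0 ≤ μ G) (hμ1 : ∑ G, μ G ≤ 1)
    (hμh : 1 / 2 ≤ ∑ G, μ G) {L D₁ θ η B : ℝ}
    (hn : 1 ≤ n) (hD : 1 ≤ D₁) (hDL : D₁ ≤ L) (hθ : 0 < θ) (hθ1 : θ ≤ 1) (hη : 0 < η)
    (hB : 0 ≤ B) (hdeg : ∀ G, μ G ≠ 0 → ∀ g ∈ G, (deg G g : ℝ) ≤ 2 * L)
    (hU : ∀ u ∈ Set.Icc 0 (Tof L D₁),
      ev μ u (potU (Dof L u)) ≤ B * m0 n (Dof L u) * Dof L u ^ (-pU)) :
    ev μ (Tof L D₁) (fun H => |(H.card : ℝ) - m0 n D₁|) ≤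
      m0 n D₁ * (((L / D₁) ^ θ - 1) + (L / D₁) ^ θ *
        ((∑ G, μ G * |(G.card : ℝ) / m0 n L - 1|) + η + 10 / θ ^ 3 * B * D₁ ^ (-pU) +
          24 * L / (η * (n : ℝ) ^ 3) * (∑ G, μ G * (G.card : ℝ)))) := by
  have hL : 0 < L := by linarith
  have hD0 : 0 < D₁ := by linarith
  have hn0 : (0 : ℝ) < n := by exact_mod_cast hn
  set T := Tof L D₁ with hT
  have hT0 : 0 ≤ T := Tof_nonneg hD0 hDL
  have hT1 : T ≤ 1 := by
    rw [hT, Tof]
    have h1 : 1 / D₁ ≤ 1 := by rw [div_le_one hD0]; exact hD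
    have h2 : 0 ≤ 1 / L := by positivity
    linarith
  have hp : (0 : ℝ) < pU := by norm_num [pU]
  set S1 := ∑ G, μ G * (G.card : ℝ) with hS1
  set R := 12 * L / (η * (n : ℝ) ^ 3) * S1 with hR
  have hS10 : 0 ≤ S1 := sum_nonneg fun G _ => mul_nonneg (hμ G) (Nat.cast_nonneg _)
  have hR0 : 0 ≤ R := by positivity
  -- the comparison
  have main := ev_le_of_drift μ hT0
    (fun u H => Dof L u ^ θ * (phiZ η (Dof L u) H + 1) -
      (10 / θ ^ 3 * B / pU * L ^ θ * Dof L u ^ (-pU) + 2 * L ^ θ * R * u))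
    (fun u H => -(2 * θ * Dof L u) * Dof L u ^ θ * (phiZ η (Dof L u) H + 1) +
      Dof L u ^ θ * (((H.card : ℝ) / m0 n (Dof L u) - 1) / phiZ η (Dof L u) H *
        ((H.card : ℝ) / m0 n (Dof L u) * Dof L u)) -
      (10 / θ ^ 3 * B / pU * L ^ θ * (2 * pU * Dof L u * Dof L u ^ (-pU)) + 2 * L ^ θ * R)) ?_ ?_
  rotate_left
  · intro u hu H
    have hphi := hasDerivAt_phiZ hn hL hu.1 hη H
    refine (((hasDerivAt_Dof_rpow hL hu.1 θ).mul (hphi.add_const 1)).sub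
      (((hasDerivAt_Dof_rpow hL hu.1 (-pU)).const_mul _).add
        ((hasDerivAt_id u).const_mul (2 * L ^ θ * R)))).congr_deriv ?_
    ring
  · intro u hu
    set D := Dof L u with hDdef
    have hDge : D₁ ≤ D := le_Dof hL hD0 hu
    have hDu : 0 < D := by linarith
    have hw : D ^ θ ≤ L ^ θ := Real.rpow_le_rpow hDu.le (Dof_le hL hu.1) hθ.le
    have hw0 : 0 ≤ D ^ θ := Real.rpow_nonneg hDu.le _
    set m := m0 n D with hm
    have hm0 : 0 < m := m0_pos hn hDu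
    have hmge : (n : ℝ) * Real.sqrt n / 2 ≤ m := m0_ge hn (by linarith)
    refine le_trans (ev_mono hμ hu.1 (f' := fun H =>
      (D ^ θ * (10 / θ ^ 3 * D / m)) * potU D H + ((D ^ θ * (12 * L / (η * (n : ℝ) ^ 3))) *
        (H.card : ℝ) +
      -(10 / θ ^ 3 * B / pU * L ^ θ * (2 * pU * D * D ^ (-pU)) + 2 * L ^ θ * R)))
      fun G0 hG0 H hH => ?_) ?_
    · exact count_drift hn (by linarith) hθ hθ1 hη hL.le H fun g hg =>
        le_trans (by exact_mod_cast deg_mono hH g) (hdeg G0 hG0 g (hH hg))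
    · simp only [ev_add, ev_smul, ev_const]
      have hU' := hU u hu
      have hP0 : 0 ≤ ev μ u (potU D) := ev_nonneg hμ hu.1 fun _ _ H _ =>
        sum_nonneg fun g _ => psiU_nonneg _
      have hC0 : 0 ≤ ev μ u (fun H => (H.card : ℝ)) :=
        ev_nonneg hμ hu.1 fun _ _ H _ => Nat.cast_nonneg _
      have hC : ev μ u (fun H => (H.card : ℝ)) ≤ S1 := by
        have h := ev_le_of_drift μ hu.1 (fun _ H => (H.card : ℝ)) (fun _ _ => 0)
          (fun v _ H => hasDerivAt_const v _) (fun v hv => by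
            refine le_trans (ev_mono hμ hv.1 (f' := fun _ => 0) fun _ _ H _ => ?_)
              (by simp [ev_const])
            rw [zero_add, gen_card, neg_nonpos]
            exact sum_nonneg fun g _ => Nat.cast_nonneg _)
        exact h
      have hM : ∑ G, μ G ≥ 0 := sum_nonneg fun G _ => hμ G
      -- the constant part has mass at most one, hence needs the two bounds below
      have h1 : D ^ θ * (10 / θ ^ 3 * D / m) * ev μ u (potU D) ≤
          L ^ θ * (10 / θ ^ 3 * B * (D * D ^ (-pU))) := by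
        refine (mul_le_mul_of_nonneg_left hU' (by positivity)).trans ?_
        have e : D ^ θ * (10 / θ ^ 3 * D / m) * (B * m * D ^ (-pU)) =
            D ^ θ * (10 / θ ^ 3 * B * (D * D ^ (-pU))) := by field_simp
        rw [e]
        gcongr
      have h2 : D ^ θ * (12 * L / (η * (n : ℝ) ^ 3)) * ev μ u (fun H => (H.card : ℝ)) ≤
          L ^ θ * R := by
        rw [hR, mul_assoc]
        gcongr
      have e : 10 / θ ^ 3 * B / pU * L ^ θ * (2 * pU * D * D ^ (-pU)) =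
          2 * (L ^ θ * (10 / θ ^ 3 * B * (D * D ^ (-pU)))) := by field_simp
      rw [e]
      have hpos : 0 ≤ L ^ θ * (10 / θ ^ 3 * B * (D * D ^ (-pU))) + L ^ θ * R := by positivity
      have h5 := mul_le_mul_of_nonneg_right hμh hpos
      linarith
  -- unfold the comparison
  rw [show Dof L T = D₁ from Dof_Tof hL hD0] at main
  have hL0 : Dof L (0 : ℝ) = L := Dof_zero L
  simp only [hL0] at main
  set P := ev μ T (phiZ η D₁) with hP
  have hlin : ev μ T (fun H => D₁ ^ θ * (phiZ η D₁ H + 1) -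
      (10 / θ ^ 3 * B / pU * L ^ θ * D₁ ^ (-pU) + 2 * L ^ θ * R * T)) =
      D₁ ^ θ * (P + (∑ G, μ G)) -
        (∑ G, μ G) * (10 / θ ^ 3 * B / pU * L ^ θ * D₁ ^ (-pU) + 2 * L ^ θ * R * T) := by
    simp only [sub_eq_add_neg, ev_add, ev_smul, ev_const, ← hP]
    ring
  rw [hlin] at main
  set S := ∑ G, μ G with hS
  set E0 := ∑ G, μ G * |(G.card : ℝ) / m0 n L - 1| with hE0
  have hrhs : ∑ G, μ G * (L ^ θ * (phiZ η L G + 1) -
      (10 / θ ^ 3 * B / pU * L ^ θ * L ^ (-pU) + 2 * L ^ θ * R * 0)) ≤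
      L ^ θ * (E0 + η + S) := by
    have hk : 0 ≤ 10 / θ ^ 3 * B / pU * L ^ θ * L ^ (-pU) := by positivity
    rw [hE0, hS]
    exact count_init hμ hμ1 hη hL.le hk
  have hZ : ev μ T (fun H => |(H.card : ℝ) - m0 n D₁|) ≤ m0 n D₁ * P := by
    rw [hP, ← ev_smul]
    refine ev_mono hμ hT0 fun _ _ H _ => ?_
    have hm := m0_pos hn hD0
    have e : (H.card : ℝ) - m0 n D₁ = m0 n D₁ * ((H.card : ℝ) / m0 n D₁ - 1) := by
      field_simp
    rw [e, abs_mul, abs_of_pos hm]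
    exact mul_le_mul_of_nonneg_left (abs_le_phiZ D₁ H) hm.le
  exact hZ.trans (mul_le_mul_of_nonneg_left
    (count_finish hD hDL hθ hB hR0 hT0 hT1 hμ1 (main.trans hrhs)
      (by rw [hR]; ring)) (m0_pos hn hD0).le)

end Vale.Agent.P046.Full.Two
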