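import Vale.Agent.P046.Full.Base

/-!
P046, phase two: one variable facts on the weight `psiU`.
-/

namespace Vale.Agent.P046.Full.Two

open Vale.Agent.P046

/-- The comparison weight `x ^ 2 / (1 + x ^ 2)`. -/
noncomputable def mm (x : ℝ) : ℝ := x ^ 2 / (1 + x ^ 2)

/-- The derivative of `psiU`. -/
noncomputable def psiU' (x : ℝ) : ℝ := x ^ 3 * (4 + 3 * x + 8 * x ^ 2) / (1 + x + 4 * x ^ 2) ^ 2

/-- The second derivative of `psiU`. -/
noncomputable def psiU'' (x : ℝ) : ℝ :=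
  x ^ 2 * (12 + 16 * x + 30 * x ^ 2 + 24 * x ^ 3 + 32 * x ^ 4) / (1 + x + 4 * x ^ 2) ^ 3

lemma den_ge (x : ℝ) : 9 / 10 * (1 + x ^ 2) ≤ 1 + x + 4 * x ^ 2 := by
  nlinarith [sq_nonneg (x + 5 / 31)]

lemma den_le (x : ℝ) : 1 + x + 4 * x ^ 2 ≤ 5 * (1 + x ^ 2) := by
  nlinarith [sq_nonneg (x - 1 / 2)]

lemma den_pos (x : ℝ) : 0 < 1 + x + 4 * x ^ 2 := by nlinarith [den_ge x, sq_nonneg x]

lemma mm_nonneg (x : ℝ) : 0 ≤ mm x := by unfold mm; positivity

lemma mm_le_one (x : ℝ) : mm x ≤ 1 := by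
  rw [mm, div_le_one (by positivity)]; linarith

lemma mm_mul (x : ℝ) : mm x * (1 + x ^ 2) = x ^ 2 :=
  div_mul_cancel₀ _ (by positivity)

lemma mm_le_sq (x : ℝ) : mm x ≤ x ^ 2 := by
  have := mm_mul x
  nlinarith [mul_nonneg (mm_nonneg x) (sq_nonneg x)]

lemma mm_big {x : ℝ} (h : 1 ≤ |x|) : 1 / 2 ≤ mm x := by
  rw [mm, le_div_iff₀ (by positivity)]
  nlinarith [sq_abs x]

lemma mm_small {x : ℝ} (h : |x| ≤ 1) : x ^ 2 / 2 ≤ mm x := by
  rw [mm, le_div_iff₀ (by positivity)]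
  have : x ^ 2 ≤ 1 := by nlinarith [sq_abs x, abs_nonneg x]
  nlinarith [sq_nonneg x]

lemma psiU_ge (x : ℝ) : x ^ 2 * mm x / 5 ≤ psiU x := by
  rw [psiU, mm, ← mul_div_assoc, div_div, div_le_div_iff₀ (by positivity) (den_pos x)]
  have h := mul_le_mul_of_nonneg_left (den_le x) (by positivity : (0 : ℝ) ≤ x ^ 2 * x ^ 2)
  nlinarith

lemma psiU_nonneg (x : ℝ) : 0 ≤ psiU x := by
  have := den_pos x
  unfold psiU; positivity

lemma psiU_le (x : ℝ) : psiU x ≤ 2 * x ^ 4 := by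
  rw [psiU, div_le_iff₀ (den_pos x)]
  nlinarith [den_ge x, sq_nonneg x, sq_nonneg (x ^ 2), mul_nonneg (sq_nonneg (x ^ 2)) (sq_nonneg x)]

lemma psiU_le_sq (x : ℝ) : psiU x ≤ 2 * x ^ 2 := by
  rw [psiU, div_le_iff₀ (den_pos x)]
  nlinarith [mul_le_mul_of_nonneg_left (den_ge x) (sq_nonneg x), sq_nonneg x, sq_nonneg (x ^ 2)]

lemma hasDerivAt_psiU (x : ℝ) : HasDerivAt psiU (psiU' x) x := by
  have h1 : HasDerivAt (fun t : ℝ => 1 + t + 4 * t ^ 2) (1 + 8 * x) x := by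
    refine (((hasDerivAt_id x).const_add (1 : ℝ)).add ((hasDerivAt_pow 2 x).const_mul 4)).congr_deriv ?_
    norm_num; ring
  refine ((hasDerivAt_pow 4 x).div h1 (den_pos x).ne').congr_deriv ?_
  unfold psiU'
  have := (den_pos x).ne'
  field_simp
  push_cast; ring

lemma deriv_psiU (x : ℝ) : deriv psiU x = psiU' x := (hasDerivAt_psiU x).deriv

lemma hasDerivAt_psiU' (x : ℝ) : HasDerivAt psiU' (psiU'' x) x := by
  have h1 : HasDerivAt (fun t : ℝ => 1 + t + 4 * t ^ 2) (1 + 8 * x) x := by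
    refine (((hasDerivAt_id x).const_add (1 : ℝ)).add ((hasDerivAt_pow 2 x).const_mul 4)).congr_deriv ?_
    norm_num; ring
  have h2 : HasDerivAt (fun t : ℝ => t ^ 3 * (4 + 3 * t + 8 * t ^ 2))
      (12 * x ^ 2 + 12 * x ^ 3 + 40 * x ^ 4) x := by
    refine ((hasDerivAt_pow 3 x).mul ((((hasDerivAt_id x).const_mul 3).const_add (4 : ℝ)).add
      ((hasDerivAt_pow 2 x).const_mul 8))).congr_deriv ?_
    norm_num; ring
  have h3 : HasDerivAt (fun t : ℝ => (1 + t + 4 * t ^ 2) ^ 2)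
      (2 * (1 + x + 4 * x ^ 2) * (1 + 8 * x)) x := by
    refine (h1.fun_pow 2).congr_deriv ?_
    push_cast; ring
  refine (h2.div h3 (pow_ne_zero 2 (den_pos x).ne')).congr_deriv ?_
  unfold psiU''
  have := (den_pos x).ne'
  field_simp
  push_cast; ring

lemma psiU''_le (x : ℝ) : psiU'' x ≤ 70 * mm x := by
  have hd := den_pos x
  rw [psiU'', mm, ← mul_div_assoc, div_le_div_iff₀ (by positivity) (by positivity)]
  have hq : 12 + 16 * x + 30 * x ^ 2 + 24 * x ^ 3 + 32 * x ^ 4 ≤ 50 * (1 + x ^ 2) ^ 2 := by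
    nlinarith [sq_nonneg (x - 1), sq_nonneg x, mul_nonneg (sq_nonneg x) (sq_nonneg (x - 1))]
  have hc : (9 / 10 * (1 + x ^ 2)) ^ 3 ≤ (1 + x + 4 * x ^ 2) ^ 3 :=
    pow_le_pow_left₀ (by positivity) (den_ge x) 3
  have h1 := mul_le_mul_of_nonneg_left hq (by positivity : (0 : ℝ) ≤ x ^ 2 * (1 + x ^ 2))
  have h2 := mul_le_mul_of_nonneg_left hc (by positivity : (0 : ℝ) ≤ 70 * x ^ 2)
  have h3 : (0 : ℝ) ≤ x ^ 2 * (1 + x ^ 2) ^ 3 := by positivity
  nlinarith

lemma mm_shift (x h : ℝ) : mm (x + h) ≤ 4 * mm x + 2 * h ^ 2 := by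
  rcases le_total 1 |x| with hx | hx
  · nlinarith [mm_big hx, mm_le_one (x + h), sq_nonneg h]
  · nlinarith [mm_small hx, mm_le_sq (x + h), sq_nonneg (x - h)]

lemma psiU_step (x h : ℝ) (hh : 0 ≤ h) :
    psiU (x - h) ≤ psiU x - psiU' x * h + (140 * mm x + 70 * h ^ 2) * h ^ 2 := by
  set B : ℝ := 280 * mm x + 140 * h ^ 2 with hB
  have hB' : ∀ v ∈ Set.Icc 0 h, psiU'' (x - v) ≤ B := by
    intro v hv
    have h1 := (psiU''_le (x - v)).trans (mul_le_mul_of_nonneg_left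
      (by simpa [sub_eq_add_neg] using mm_shift x (-v)) (by norm_num : (0 : ℝ) ≤ 70))
    have h2 : v ^ 2 ≤ h ^ 2 := pow_le_pow_left₀ hv.1 hv.2 2
    linarith
  -- the first derivative of the remainder
  set k : ℝ → ℝ := fun v => B * v ^ 2 / 2 - psiU' x * v + psiU x - psiU (x - v) with hk
  set k' : ℝ → ℝ := fun v => B * v - psiU' x + psiU' (x - v) with hk'
  have d1 : ∀ v, HasDerivAt k (k' v) v := by
    intro v
    have h0 : HasDerivAt (fun v => x - v) (-1) v := by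
      simpa using (hasDerivAt_id v).const_sub x
    refine ((((((hasDerivAt_pow 2 v).const_mul B).div_const 2).sub
      ((hasDerivAt_id v).const_mul (psiU' x))).add_const (psiU x)).sub
      ((hasDerivAt_psiU (x - v)).comp v h0)).congr_deriv ?_
    simp [hk']; ring
  have d2 : ∀ v, HasDerivAt k' (B - psiU'' (x - v)) v := by
    intro v
    have h0 : HasDerivAt (fun v => x - v) (-1) v := by
      simpa using (hasDerivAt_id v).const_sub x
    refine ((((hasDerivAt_id v).const_mul B).sub_const (psiU' x)).add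
      ((hasDerivAt_psiU' (x - v)).comp v h0)).congr_deriv ?_
    ring
  have hk'0 : ∀ v ∈ Set.Icc 0 h, 0 ≤ k' v := by
    intro v hv
    have hm : MonotoneOn k' (Set.Icc 0 h) :=
      monotoneOn_of_hasDerivWithinAt_nonneg (convex_Icc 0 h)
        (fun w _ => (d2 w).continuousAt.continuousWithinAt)
        (fun w _ => (d2 w).hasDerivWithinAt)
        (fun w hw => by have := hB' w (interior_subset hw); linarith)
    have h0 : k' 0 = 0 := by simp [hk']
    exact h0 ▸ hm (Set.left_mem_Icc.2 hh) hv hv.1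
  have hmk : MonotoneOn k (Set.Icc 0 h) :=
    monotoneOn_of_hasDerivWithinAt_nonneg (convex_Icc 0 h)
      (fun w _ => (d1 w).continuousAt.continuousWithinAt)
      (fun w _ => (d1 w).hasDerivWithinAt) (fun w hw => hk'0 w (interior_subset hw))
  have h0 : k 0 = 0 := by simp [hk]
  have := h0 ▸ hmk (Set.left_mem_Icc.2 hh) (Set.right_mem_Icc.2 hh) hh
  simp only [hk, hB] at this
  linarith

lemma abs_psiU'_mul_le (x : ℝ) : |psiU' x * (1 + x)| ≤ 26 * x ^ 2 := by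
  have hd := den_pos x
  have hq : |4 + 3 * x + 8 * x ^ 2| ≤ 10 * (1 + x ^ 2) := by
    rw [abs_le]; constructor <;> nlinarith [sq_nonneg (x - 1), sq_nonneg (x + 1)]
  have ha : |x| * (|1 + x|) ≤ 2 * (1 + x ^ 2) := by
    nlinarith [abs_add_le (1 : ℝ) x, abs_one (α := ℝ), abs_nonneg x, sq_abs x, sq_nonneg (|x| - 1)]
  rw [psiU', div_mul_eq_mul_div, abs_div,
    abs_of_nonneg (a := (1 + x + 4 * x ^ 2) ^ 2) (sq_nonneg (1 + x + 4 * x ^ 2)),
    div_le_iff₀ (by positivity), abs_mul, abs_mul, abs_pow]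
  calc |x| ^ 3 * |4 + 3 * x + 8 * x ^ 2| * |1 + x|
      = |x| ^ 2 * |4 + 3 * x + 8 * x ^ 2| * (|x| * |1 + x|) := by ring
    _ ≤ |x| ^ 2 * (10 * (1 + x ^ 2)) * (2 * (1 + x ^ 2)) := by gcongr
    _ ≤ 26 * x ^ 2 * (9 / 10 * (1 + x ^ 2)) ^ 2 := by
        rw [sq_abs]; nlinarith [mul_nonneg (sq_nonneg x) (sq_nonneg (1 + x ^ 2))]
    _ ≤ 26 * x ^ 2 * (1 + x + 4 * x ^ 2) ^ 2 := by
        gcongr
        exact den_ge x

/-- `|x|` against the weight. -/
lemma abs_le_psiU {θ : ℝ} (hθ : 0 < θ) (hθ1 : θ ≤ 1) (x : ℝ) :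
    |x| ≤ θ + 10 / θ ^ 3 * psiU x := by
  have hp := psiU_nonneg x
  rcases le_total |x| θ with h | h
  · have : 0 ≤ 10 / θ ^ 3 * psiU x := by positivity
    linarith
  have hg := psiU_ge x
  have key : |x| * θ ^ 3 ≤ 10 * psiU x := by
    rcases le_total |x| 1 with h1 | h1
    · have h2 := mul_le_mul_of_nonneg_left (mm_small h1) (sq_nonneg x)
      have h3 : θ ^ 3 ≤ |x| ^ 3 := pow_le_pow_left₀ hθ.le h 3
      have h4 := mul_le_mul_of_nonneg_left h3 (abs_nonneg x)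
      have h5 : |x| * |x| ^ 3 = x ^ 2 * x ^ 2 := by rw [← sq_abs x]; ring
      linarith
    · have h2 := mul_le_mul_of_nonneg_left (mm_big h1) (sq_nonneg x)
      have h3 : θ ^ 3 ≤ 1 := pow_le_one₀ hθ.le hθ1
      have h4 : |x| ≤ x ^ 2 := by rw [← sq_abs x]; nlinarith
      have h5 := mul_le_mul_of_nonneg_left h3 (abs_nonneg x)
      linarith
  rw [div_mul_eq_mul_div]
  have : |x| ≤ 10 * psiU x / θ ^ 3 := by rw [le_div_iff₀ (by positivity)]; exact key
  linarith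

/-- `x ^ 2` against the weight, with a small loss. -/
lemma sq_le_psiU {a : ℝ} (ha : 10 ≤ a) (x : ℝ) : x ^ 2 ≤ a * psiU x + 3 / a := by
  have ha0 : 0 < a := by linarith
  have hg := psiU_ge x
  rcases le_total |x| 1 with h1 | h1
  · have h2 := mul_le_mul_of_nonneg_left (mm_small h1) (sq_nonneg x)
    have h3 : x ^ 2 * x ^ 2 ≤ 10 * psiU x := by linarith
    have h4 : a * (x ^ 2 - a * psiU x) ≤ 3 := by
      nlinarith [sq_nonneg (a * x ^ 2 - 5), mul_le_mul_of_nonneg_left h3 (sq_nonneg a)]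
    have h5 : x ^ 2 - a * psiU x ≤ 3 / a := by rw [le_div_iff₀ ha0]; linarith
    linarith
  · have h2 := mul_le_mul_of_nonneg_left (mm_big h1) (sq_nonneg x)
    have h3 := mul_le_mul_of_nonneg_right ha (psiU_nonneg x)
    have : 0 ≤ 3 / a := by positivity
    linarith

end Vale.Agent.P046.Full.Two
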