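import Vale.Agent.P046.Full.Two.Basic
import Vale.Agent.P046.Full.Two.Psi
import Vale.Agent.P046.Full.Two.Comb

/-!
P046, phase two: the drift of the quartic potential and its decay in mean.
-/

namespace Vale.Agent.P046.Full.Two

open Finset
open Vale.Agent.P046

variable {n : ℕ}

/-- The time derivative of `potU` at predicted codegree `D`. -/
noncomputable def potU' (D : ℝ) (G : Gr n) : ℝ :=
  ∑ g ∈ G, psiU' (xg D G g) * (2 * D * (1 + xg D G g))

lemma hasDerivAt_xg {L u : ℝ} (hL : 0 < L) (hu : 0 ≤ u) (G : Gr n) (g : Finset (Fin n)) :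
    HasDerivAt (fun v => xg (Dof L v) G g) (2 * Dof L u * (1 + xg (Dof L u) G g)) u := by
  have hp := Dof_pos hL hu
  simp only [xg]
  refine ((((hasDerivAt_Dof hL hu).inv hp.ne').const_mul (deg G g : ℝ)).sub_const 1).congr_deriv ?_
  field_simp
  ring

lemma hasDerivAt_potU {L u : ℝ} (hL : 0 < L) (hu : 0 ≤ u) (G : Gr n) :
    HasDerivAt (fun v => potU (Dof L v) G) (potU' (Dof L u) G) u :=
  HasDerivAt.fun_sum fun g _ => (hasDerivAt_psiU _).comp u (hasDerivAt_xg hL hu G g)

lemma gen_card (G : Gr n) :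
    gen (rstep (n := n)) (fun H => (H.card : ℝ)) G = -∑ g ∈ G, (deg G g : ℝ) := by
  rw [gen_rstep, sum_congr rfl (g := fun _ => (-3 : ℝ))]
  · rw [sum_const, ← Nat.cast_sum, sum_deg]; simp; ring
  · intro E hE
    have := congrArg (Nat.cast (R := ℝ)) (card_rem hE)
    push_cast at this
    linarith

lemma sum_deg_xg {D : ℝ} (hD : D ≠ 0) (G : Gr n) :
    ∑ g ∈ G, (deg G g : ℝ) = D * (G.card : ℝ) + D * ∑ g ∈ G, xg D G g := by
  simp_rw [deg_eq_xg hD, mul_add, mul_one, sum_add_distrib, ← mul_sum, sum_const, nsmul_eq_mul]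
  ring

lemma cert_tri (hc : CertTwoStmt) {D : ℝ} (hD : 0 < D) (G : Gr n) {F : Finset (Fin n)}
    (hF : F ∈ tri G) :
    ∑ g ∈ sides F, (-psiU' (xg D G g) * (∑ f ∈ others F g, xg D G f) -
      psiU (xg D G g) * (xg D G g + 221 / 50) / (1 + xg D G g)) ≤ 0 := by
  obtain ⟨a, b, c, hab, hac, hbc, habc⟩ := card_eq_three.1 (card_sides (mem_tri.1 hF).1)
  have hpos : ∀ g ∈ sides F, -1 < xg D G g := by
    intro g hg
    rw [xg]
    have : 0 < (deg G g : ℝ) / D := div_pos (by exact_mod_cast deg_pos hF hg) hD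
    linarith
  have h := hc (xg D G a) (xg D G b) (xg D G c) (hpos a (by simp [habc])) (hpos b (by simp [habc]))
    (hpos c (by simp [habc]))
  simp only [deriv_psiU] at h
  have e : ∀ g : Finset (Fin n), psiU (xg D G g) * (xg D G g + 221 / 50) / (1 + xg D G g) =
      psiU (xg D G g) * xg D G g / (1 + xg D G g) +
        221 / 50 * (psiU (xg D G g) / (1 + xg D G g)) := fun g => by ring
  simp only [others, habc, e]
  rw [sum_insert (by simp [hab, hac]), sum_pair hbc]
  have ea : ({a, b, c} : Finset (Finset (Fin n))).erase a = {b, c} :=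
    erase_insert (by simp [hab, hac])
  have eb : ({a, b, c} : Finset (Finset (Fin n))).erase b = {a, c} := by
    rw [insert_comm, erase_insert (by simp [hab.symm, hbc])]
  have ec : ({a, b, c} : Finset (Finset (Fin n))).erase c = {a, b} := by
    rw [show ({a, b, c} : Finset (Finset (Fin n))) = {c, a, b} by ext x; simp; tauto,
      erase_insert (by simp [hac.symm, hbc.symm])]
  rw [ea, eb, ec, sum_pair hbc, sum_pair hac, sum_pair hab]
  linarith

lemma drift_potU (hc : CertTwoStmt) {D : ℝ} (hD : 10 ^ 7 ≤ D) (G : Gr n) :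
    potU' D G + gen (rstep (n := n)) (potU D) G ≤
      D * (343 / 100) * potU D G + 7 * 10 ^ 9 / D * (G.card : ℝ) := by
  have hD0 : 0 < D := by linarith
  have hgen : gen (rstep (n := n)) (potU D) G = ∑ g ∈ G,
      ((∑ E ∈ (tri G).filter (fun E => g ∉ sides E),
        (psiU (xg D (rem G E) g) - psiU (xg D G g))) - (deg G g : ℝ) * psiU (xg D G g)) := by
    rw [gen_rstep]
    exact gen_edge_sum (fun H g => psiU (xg D H g)) G
  -- one edge
  have hedge : ∀ g ∈ G, psiU' (xg D G g) * (2 * D * (1 + xg D G g)) +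
      ((∑ E ∈ (tri G).filter (fun E => g ∉ sides E),
        (psiU (xg D (rem G E) g) - psiU (xg D G g))) - (deg G g : ℝ) * psiU (xg D G g)) ≤
      (∑ F ∈ triAt G g, (-psiU' (xg D G g) * (∑ f ∈ others F g, xg D G f) -
        psiU (xg D G g) * (xg D G g + 221 / 50) / (1 + xg D G g))) +
      D * (342 / 100) * psiU (xg D G g) + 52 * xg D G g ^ 2 +
      (280 * mm (xg D G g) + 560 / D ^ 2) / D *
        ∑ f ∈ nbrs G g, (1 + |xg D G f|) := by
    intro g _
    set x := xg D G g with hx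
    set T := (tri G).filter (fun E => g ∉ sides E) with hT
    have h1 : ∑ E ∈ T, (psiU (xg D (rem G E) g) - psiU x) ≤
        -(psiU' x / D) * (∑ E ∈ T, (lost G g E : ℝ)) +
          (280 * mm x + 560 / D ^ 2) / D ^ 2 * (∑ E ∈ T, (lost G g E : ℝ)) := by
      rw [mul_sum, mul_sum, ← sum_add_distrib]
      refine sum_le_sum fun E hE => ?_
      obtain ⟨hEt, hgE⟩ := mem_filter.1 hE
      rw [xg_rem, ← hx]
      have h := psiU_step x ((lost G g E : ℝ) / D) (by positivity)
      have hl : (lost G g E : ℝ) ≤ 2 := by exact_mod_cast lost_le_two hEt hgE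
      have hl0 : 0 ≤ (lost G g E : ℝ) := Nat.cast_nonneg _
      have h2 : ((lost G g E : ℝ) / D) ^ 2 ≤ 2 * (lost G g E : ℝ) / D ^ 2 := by
        rw [div_pow]; gcongr; nlinarith
      have h4 : ((lost G g E : ℝ) / D) ^ 2 ≤ 4 / D ^ 2 := by
        rw [div_pow]; gcongr; nlinarith
      have hm := mm_nonneg x
      have h3 : (140 * mm x + 70 * ((lost G g E : ℝ) / D) ^ 2) * ((lost G g E : ℝ) / D) ^ 2 ≤
          (140 * mm x + 280 / D ^ 2) * (2 * (lost G g E : ℝ) / D ^ 2) :=
        mul_le_mul (by linarith [show 70 * (4 / D ^ 2) = 280 / D ^ 2 by ring]) h2 (sq_nonneg _)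
          (by positivity)
      have e : (280 * mm x + 560 / D ^ 2) / D ^ 2 * (lost G g E : ℝ) =
          (140 * mm x + 280 / D ^ 2) * (2 * (lost G g E : ℝ) / D ^ 2) := by ring
      have e2 : -(psiU' x / D) * (lost G g E : ℝ) = -(psiU' x * ((lost G g E : ℝ) / D)) := by ring
      linarith
    have hS : ∑ E ∈ T, (lost G g E : ℝ) =
        2 * D * (deg G g : ℝ) - 2 * (deg G g : ℝ) +
          D * ∑ F ∈ triAt G g, ∑ f ∈ others F g, xg D G f := by
      rw [hT, sum_lost_triAt]
      have : ∀ F ∈ triAt G g, (∑ f ∈ others F g, (deg G f : ℝ)) - 2 =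
          (2 * D - 2) + D * ∑ f ∈ others F g, xg D G f := by
        intro F hF
        simp_rw [deg_eq_xg hD0.ne', mul_add, mul_one, sum_add_distrib, ← mul_sum, sum_const,
          card_others hF]
        simp; ring
      rw [sum_congr rfl this, sum_add_distrib, sum_const, ← mul_sum, nsmul_eq_mul, ← deg_eq]
      ring
    have hS' : ∑ E ∈ T, (lost G g E : ℝ) ≤ D * ∑ f ∈ nbrs G g, (1 + |xg D G f|) := by
      rw [hT, sum_lost_triAt, sum_nbrs, mul_sum]
      refine sum_le_sum fun F hF => ?_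
      rw [mul_sum]
      have : ∑ f ∈ others F g, (deg G f : ℝ) ≤ ∑ f ∈ others F g, D * (1 + |xg D G f|) :=
        sum_le_sum fun f _ => by
          rw [deg_eq_xg hD0.ne']
          exact mul_le_mul_of_nonneg_left (by linarith [le_abs_self (xg D G f)]) hD0.le
      linarith
    have hk : 0 ≤ (280 * mm x + 560 / D ^ 2) / D ^ 2 := by
      have := mm_nonneg x; positivity
    have h5 := mul_le_mul_of_nonneg_left hS' hk
    have e5 : (280 * mm x + 560 / D ^ 2) / D ^ 2 * (D * ∑ f ∈ nbrs G g, (1 + |xg D G f|)) =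
        (280 * mm x + 560 / D ^ 2) / D * ∑ f ∈ nbrs G g, (1 + |xg D G f|) := by
      field_simp
    have hd : (deg G g : ℝ) = D * (1 + x) := deg_eq_xg hD0.ne' G g
    have e1 : psiU' x * (2 * D * (1 + x)) + -(psiU' x / D) * (∑ E ∈ T, (lost G g E : ℝ)) =
        2 * (psiU' x * (1 + x)) +
          -psiU' x * ∑ F ∈ triAt G g, ∑ f ∈ others F g, xg D G f := by
      rw [hS, hd]; field_simp; ring
    have h6 : 2 * (psiU' x * (1 + x)) ≤ 52 * x ^ 2 := by
      linarith [le_abs_self (psiU' x * (1 + x)), abs_psiU'_mul_le x]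
    have h7 : -(deg G g : ℝ) * psiU x + (deg G g : ℝ) * (psiU x * (x + 221 / 50) / (1 + x)) ≤
        D * (342 / 100) * psiU x := by
      have hp := psiU_nonneg x
      by_cases h0 : 1 + x = 0
      · rw [hd, h0]; simp; positivity
      · rw [hd, show -(D * (1 + x)) * psiU x + D * (1 + x) * (psiU x * (x + 221 / 50) / (1 + x))
          = D * (342 / 100) * psiU x by field_simp; ring]
    have h8 : ∑ F ∈ triAt G g, (-psiU' x * (∑ f ∈ others F g, xg D G f) -
        psiU x * (x + 221 / 50) / (1 + x)) =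
        -psiU' x * ∑ F ∈ triAt G g, ∑ f ∈ others F g, xg D G f -
          (deg G g : ℝ) * (psiU x * (x + 221 / 50) / (1 + x)) := by
      rw [sum_sub_distrib, ← mul_sum, sum_const, nsmul_eq_mul, ← deg_eq]
    linarith
  -- the triangles
  have htri : ∑ g ∈ G, ∑ F ∈ triAt G g, (-psiU' (xg D G g) * (∑ f ∈ others F g, xg D G f) -
      psiU (xg D G g) * (xg D G g + 221 / 50) / (1 + xg D G g)) ≤ 0 := by
    rw [sum_triAt_swap G (fun g F => -psiU' (xg D G g) * (∑ f ∈ others F g, xg D G f) -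
      psiU (xg D G g) * (xg D G g + 221 / 50) / (1 + xg D G g))]
    exact sum_nonpos fun F hF => cert_tri hc hD0 G hF
  -- the second order terms
  have hsec : ∑ g ∈ G, (280 * mm (xg D G g) + 560 / D ^ 2) / D *
      ∑ f ∈ nbrs G g, (1 + |xg D G f|) ≤
      4480 * ∑ g ∈ G, xg D G g ^ 2 + 2240 / D ^ 2 * (G.card : ℝ) := by
    have hpt : ∀ g f : Finset (Fin n), (280 * mm (xg D G g) + 560 / D ^ 2) / D * (1 + |xg D G f|) ≤
        560 / D * mm (xg D G g) +
          (560 / D * (mm (xg D G f) * |xg D G f|) + 560 / D ^ 2 / D * (1 + |xg D G f|)) := by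
      intro g f
      have h : mm (xg D G g) * (1 + |xg D G f|) ≤
          2 * mm (xg D G g) + 2 * (mm (xg D G f) * |xg D G f|) := by
        rcases le_total |xg D G f| 1 with h1 | h1
        · nlinarith [mm_nonneg (xg D G g), mul_nonneg (mm_nonneg (xg D G f))
            (abs_nonneg (xg D G f))]
        · nlinarith [mm_le_one (xg D G g), mm_nonneg (xg D G g), mm_big h1]
      have hk : (0 : ℝ) ≤ 280 / D := by positivity
      calc (280 * mm (xg D G g) + 560 / D ^ 2) / D * (1 + |xg D G f|)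
          = 280 / D * (mm (xg D G g) * (1 + |xg D G f|)) +
            560 / D ^ 2 / D * (1 + |xg D G f|) := by ring
        _ ≤ 280 / D * (2 * mm (xg D G g) + 2 * (mm (xg D G f) * |xg D G f|)) +
            560 / D ^ 2 / D * (1 + |xg D G f|) := by gcongr
        _ = _ := by ring
    refine (sum_le_sum (g := fun g => ∑ f ∈ nbrs G g, (560 / D * mm (xg D G g) +
      (560 / D * (mm (xg D G f) * |xg D G f|) + 560 / D ^ 2 / D * (1 + |xg D G f|))))
      fun g _ => ?_).trans ?_
    · rw [mul_sum]; exact sum_le_sum fun f _ => hpt g f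
    simp only [sum_add_distrib (s := nbrs G _)]
    rw [sum_add_distrib, sum_add_distrib, sum_nbrs_fun G (fun f => 560 / D * (mm _ * |xg D G f|)),
      sum_nbrs_fun G (fun f => 560 / D ^ 2 / D * (1 + |xg D G f|))]
    simp only [sum_const, card_nbrs, nsmul_eq_mul]
    push_cast
    rw [← sum_add_distrib, ← sum_add_distrib, mul_sum,
      show 2240 / D ^ 2 * (G.card : ℝ) = ∑ g ∈ G, 2240 / D ^ 2 by
        rw [sum_const, nsmul_eq_mul]; ring, ← sum_add_distrib]
    refine sum_le_sum fun g _ => ?_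
    set x := xg D G g with hx
    have hd : (deg G g : ℝ) = D * (1 + x) := deg_eq_xg hD0.ne' G g
    have ha : (1 + x) * (1 + |x|) ≤ 2 * (1 + x ^ 2) := by
      have := le_abs_self x
      nlinarith [sq_nonneg (|x| - 1), sq_abs x, abs_nonneg x]
    have hmx : mm x * ((1 + x) * (1 + |x|)) ≤ 2 * x ^ 2 := by
      have := mul_le_mul_of_nonneg_left ha (mm_nonneg x)
      linarith [mm_mul x]
    have hD2 : 1 / D ^ 2 ≤ 1 := by
      rw [div_le_one (by positivity)]; nlinarith
    have hx2 : 2240 / D ^ 2 * x ^ 2 ≤ 2240 * x ^ 2 := by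
      refine mul_le_mul_of_nonneg_right ?_ (sq_nonneg x)
      linarith [show (2240 : ℝ) / D ^ 2 = 2240 * (1 / D ^ 2) by ring]
    have hb := mul_le_mul_of_nonneg_left ha (by positivity : (0 : ℝ) ≤ 1120 / D ^ 2)
    rw [hd]
    have e : 2 * (D * (1 + x)) * (560 / D * mm x) + (2 * (D * (1 + x)) * (560 / D * (mm x * |x|)) +
        2 * (D * (1 + x)) * (560 / D ^ 2 / D * (1 + |x|))) =
        1120 * (mm x * ((1 + x) * (1 + |x|))) + 1120 / D ^ 2 * ((1 + x) * (1 + |x|)) := by
      field_simp; ring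
    have e2 : 1120 / D ^ 2 * (2 * (1 + x ^ 2)) = 2240 / D ^ 2 + 2240 / D ^ 2 * x ^ 2 := by ring
    linarith
  have hsum := sum_le_sum hedge
  rw [sum_add_distrib, sum_add_distrib, sum_add_distrib, sum_add_distrib, ← mul_sum, ← mul_sum,
    ← hgen] at hsum
  have hsq : ∀ g ∈ G, 4532 * xg D G g ^ 2 ≤ D / 100 * psiU (xg D G g) + 62 * 10 ^ 8 / D := by
    intro g _
    have ha : 10 ≤ D / 453200 := by rw [le_div_iff₀ (by norm_num)]; linarith
    have := sq_le_psiU ha (xg D G g)
    have e : 4532 * (3 / (D / 453200)) = 6161707200 / D := by field_simp; ring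
    have : (6161707200 : ℝ) / D ≤ 62 * 10 ^ 8 / D := by gcongr; norm_num
    linarith
  have hsq' := sum_le_sum hsq
  rw [sum_add_distrib, ← mul_sum, ← mul_sum, sum_const, nsmul_eq_mul] at hsq'
  have hlast : 2240 / D ^ 2 * (G.card : ℝ) ≤ 2240 / D * (G.card : ℝ) := by
    gcongr; nlinarith
  have hcard : 62 * 10 ^ 8 / D * (G.card : ℝ) + 2240 / D * (G.card : ℝ) ≤
      7 * 10 ^ 9 / D * (G.card : ℝ) := by
    rw [← add_mul, ← add_div]; gcongr; norm_num
  simp only [potU, potU'] at *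
  linarith

/-- The exponent of the decay. -/
noncomputable def pU : ℝ := 2217 / 1000

/-- The supermartingale of the quartic potential. -/
noncomputable def aU (L u : ℝ) (G : Gr n) : ℝ :=
  Dof L u ^ (pU - 1 / 2) * (potU (Dof L u) G + 35 * 10 ^ 9 / Dof L u ^ 2 * (G.card : ℝ))

lemma ev_aU_le (hc : CertTwoStmt) {μ : Gr n → ℝ} (hμ : ∀ G, 0 ≤ μ G) {L D₁ b : ℝ} (hL : 0 < L)
    (hD : 10 ^ 9 ≤ D₁) (hb : b ∈ Set.Icc 0 (Tof L D₁)) :
    ev μ b (aU L b) ≤ ∑ G, μ G * aU L 0 G := by
  have hD0 : 0 < D₁ := by linarith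
  refine ev_le_of_drift μ hb.1 (fun u G => aU L u G)
    (fun u G => -(2 * (pU - 1 / 2) * Dof L u) * Dof L u ^ (pU - 1 / 2) *
        (potU (Dof L u) G + 35 * 10 ^ 9 / Dof L u ^ 2 * (G.card : ℝ)) +
      Dof L u ^ (pU - 1 / 2) * (potU' (Dof L u) G + 4 * (35 * 10 ^ 9) / Dof L u * (G.card : ℝ)))
    ?_ ?_
  · intro u hu G
    have hp := Dof_pos hL hu.1
    refine (hasDerivAt_Dof_rpow hL hu.1 _).mul ((hasDerivAt_potU hL hu.1 G).add ?_)
    refine ((((hasDerivAt_Dof hL hu.1).fun_pow 2).inv (by positivity)).const_mul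
      (35 * 10 ^ 9 : ℝ) |>.mul_const (G.card : ℝ)).congr_deriv ?_
    field_simp
    ring
  · intro u hu
    have hu' : u ∈ Set.Icc 0 (Tof L D₁) := ⟨hu.1, hu.2.trans hb.2⟩
    have hge := le_Dof hL hD0 hu'
    refine le_trans (ev_mono hμ hu.1 (f' := fun _ => 0) fun G0 _ H _ => ?_) (by simp [ev_const])
    set D := Dof L u with hDdef
    have hD1 : 0 < D := by linarith
    have hgen : gen (rstep (n := n)) (aU L u) H = D ^ (pU - 1 / 2) *
        (gen (rstep (n := n)) (potU D) H +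
          35 * 10 ^ 9 / D ^ 2 * gen (rstep (n := n)) (fun K => (K.card : ℝ)) H) := by
      have : aU (n := n) L u = D ^ (pU - 1 / 2) •
          ((potU D : Gr n → ℝ) + (35 * 10 ^ 9 / D ^ 2) • fun K : Gr n => (K.card : ℝ)) := by
        funext K; simp [aU, hDdef]
      simp only [this, map_smul, map_add, Pi.smul_apply, Pi.add_apply, smul_eq_mul]
    rw [hgen, gen_card, sum_deg_xg hD1.ne']
    have hdr := drift_potU hc (by linarith : (10 : ℝ) ^ 7 ≤ D) H
    have habs : -(∑ g ∈ H, xg D H g) ≤ 1 / 5 * (H.card : ℝ) + 1250 * potU D H := by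
      rw [← sum_neg_distrib]
      refine (sum_le_sum (g := fun g => 1 / 5 + 1250 * psiU (xg D H g)) fun g _ => ?_).trans ?_
      · have := abs_le_psiU (θ := 1 / 5) (by norm_num) (by norm_num) (xg D H g)
        norm_num at this
        linarith [neg_le_abs (xg D H g)]
      · rw [sum_add_distrib, sum_const, nsmul_eq_mul, ← mul_sum, potU]; linarith
    have hPhi : 0 ≤ potU D H := sum_nonneg fun g _ => psiU_nonneg _
    have hN : (0 : ℝ) ≤ (H.card : ℝ) := Nat.cast_nonneg _
    have hw : 0 ≤ D ^ (pU - 1 / 2) := Real.rpow_nonneg hD1.le _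
    have hk : 1250 * (35 * 10 ^ 9 / D) ≤ 4 / 1000 * D := by
      rw [← mul_div_assoc, div_le_iff₀ hD1]; nlinarith
    have h9 := mul_le_mul_of_nonneg_left habs (by positivity : (0 : ℝ) ≤ 35 * 10 ^ 9 / D)
    have h10 := mul_le_mul_of_nonneg_right hk hPhi
    have key : -(2 * (pU - 1 / 2) * D) * (potU D H + 35 * 10 ^ 9 / D ^ 2 * (H.card : ℝ)) +
        (potU' D H + 4 * (35 * 10 ^ 9) / D * (H.card : ℝ)) +
        (gen (rstep (n := n)) (potU D) H +
          35 * 10 ^ 9 / D ^ 2 * -(D * (H.card : ℝ) + D * ∑ g ∈ H, xg D H g)) ≤ 0 := by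
      have e1 : -(2 * (pU - 1 / 2) * D) * (potU D H + 35 * 10 ^ 9 / D ^ 2 * (H.card : ℝ)) =
          -(3434 / 1000) * D * potU D H - 3434 / 1000 * (35 * 10 ^ 9 / D) * (H.card : ℝ) := by
        unfold pU; field_simp; ring
      have e2 : 35 * 10 ^ 9 / D ^ 2 * -(D * (H.card : ℝ) + D * ∑ g ∈ H, xg D H g) =
          -(35 * 10 ^ 9 / D * (H.card : ℝ)) + 35 * 10 ^ 9 / D * -∑ g ∈ H, xg D H g := by
        field_simp; ring
      have e3 : 7 * 10 ^ 9 / D * (H.card : ℝ) = 1 / 5 * (35 * 10 ^ 9 / D) * (H.card : ℝ) := by ring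
      have e4 : 0 ≤ 35 * 10 ^ 9 / D * (H.card : ℝ) := by positivity
      rw [e1, e2]
      linear_combination hdr + h9 + h10 + (17 / 500 : ℝ) * e4
    nlinarith [mul_nonpos_of_nonneg_of_nonpos hw key]

end Vale.Agent.P046.Full.Two
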