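import Vale.Agent.P046.Full.Two.OmStep

/-!
P046, phase two: the drift of the potential of the neighbour sums.
-/

namespace Vale.Agent.P046.Full.Two

open Finset
open Vale.Agent.P046

variable {n : ℕ}

/-- The edges whose codegree exceeds `M` times the prediction. -/
noncomputable def badSet (D M : ℝ) (G : Gr n) : Finset (Finset (Fin n)) :=
  G.filter (fun g => M * D < (deg G g : ℝ))

/-- Neither `g` nor a neighbour of it is bad. -/
abbrev Nice (D M : ℝ) (G : Gr n) (g : Finset (Fin n)) : Prop :=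
  (deg G g : ℝ) ≤ M * D ∧ ∀ f ∈ nbrs G g, (deg G f : ℝ) ≤ M * D

/-- The time derivative of `potW`. -/
noncomputable def potW' (D : ℝ) (G : Gr n) : ℝ :=
  ∑ g ∈ G, 2 * om D G g * (4 * D * om D G g + 4 * (deg G g : ℝ))

lemma hasDerivAt_potW {L u : ℝ} (hL : 0 < L) (hu : 0 ≤ u) (G : Gr n) :
    HasDerivAt (fun v => potW (Dof L v) G) (potW' (Dof L u) G) u := by
  refine HasDerivAt.fun_sum fun g _ => ?_
  have hp := Dof_pos hL hu
  have hS : ∑ f ∈ nbrs G g, xg (Dof L u) G f = Dof L u * om (Dof L u) G g := by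
    rw [om]; field_simp
  have h : HasDerivAt (fun v => om (Dof L v) G g)
      (4 * Dof L u * om (Dof L u) G g + 4 * (deg G g : ℝ)) u := by
    simp only [om]
    refine ((HasDerivAt.fun_sum fun f _ => hasDerivAt_xg hL hu G f).div
      (hasDerivAt_Dof hL hu) hp.ne').congr_deriv ?_
    rw [← mul_sum, sum_add_distrib, sum_const, card_nbrs, nsmul_eq_mul, hS]
    push_cast
    field_simp
    ring
  refine (h.fun_pow 2).congr_deriv ?_
  norm_num

lemma sum_triangles_nonneg (G : Gr n) (w : Finset (Fin n) → ℝ) :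
    -∑ g ∈ G, w g * (∑ f ∈ nbrs G g, w f) ≤ ∑ g ∈ G, (deg G g : ℝ) * w g ^ 2 := by
  have h : ∑ g ∈ G, (w g * (∑ f ∈ nbrs G g, w f) + (deg G g : ℝ) * w g ^ 2) =
      ∑ F ∈ tri G, (∑ g ∈ sides F, w g) ^ 2 := by
    calc _ = ∑ g ∈ G, ∑ F ∈ triAt G g, w g * ∑ f ∈ sides F, w f := by
          refine sum_congr rfl fun g _ => ?_
          have h' : ∀ F ∈ triAt G g, w g * ∑ f ∈ sides F, w f =
              w g * (∑ f ∈ others F g, w f) + w g ^ 2 := by
            intro F hF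
            rw [← sum_erase_add _ _ (mem_triAt.1 hF).2, others]; ring
          rw [sum_congr rfl h', sum_add_distrib, ← mul_sum, ← sum_nbrs, sum_const, nsmul_eq_mul,
            ← deg_eq]
      _ = ∑ F ∈ tri G, ∑ g ∈ sides F, w g * ∑ f ∈ sides F, w f := sum_triAt_swap G _
      _ = _ := sum_congr rfl fun F _ => by rw [← sum_mul, sq]
  rw [sum_add_distrib] at h
  have h0 : 0 ≤ ∑ F ∈ tri G, (∑ g ∈ sides F, w g) ^ 2 := sum_nonneg fun F _ => sq_nonneg _
  linarith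

/-- Everything in the drift at `g` apart from the squared losses. -/
noncomputable def wEdge (D : ℝ) (G : Gr n) (g : Finset (Fin n)) : ℝ :=
  (deg G g : ℝ) * om D G g ^ 2 + 8 * om D G g ^ 2 + 8 * ((deg G g : ℝ) / D) * |om D G g| +
    2 * |om D G g| * nSq D G g +
    8 * |om D G g| * (∑ F ∈ triAt G g, ∑ f ∈ sides F, (deg G f : ℝ)) / D ^ 2 +
    8 / D ^ 2 * (∑ F ∈ triAt G g, (∑ f ∈ others F g, xg D G f ^ 2) *
      (∑ f ∈ others F g, (deg G f : ℝ)))

lemma gen_potW_le {D : ℝ} (hD : 0 < D) (G : Gr n) :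
    potW' D G + gen (rstep (n := n)) (potW D) G ≤ (∑ g ∈ G, wEdge D G g) +
      6 / D ^ 4 * ∑ g ∈ G, ∑ e ∈ G.erase g, (deg G e : ℝ) * (paths2 G g e : ℝ) ^ 2 := by
  have hgen : gen (rstep (n := n)) (potW D) G = ∑ g ∈ G,
      ((∑ E ∈ (tri G).filter (fun E => g ∉ sides E),
        (om D (rem G E) g ^ 2 - om D G g ^ 2)) - (deg G g : ℝ) * om D G g ^ 2) := by
    rw [gen_rstep]
    exact gen_edge_sum (fun H g => om D H g ^ 2) G
  have hpsd := sum_triangles_nonneg G (fun g => om D G g)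
  have hedge : ∀ g ∈ G, 2 * om D G g * (4 * D * om D G g + 4 * (deg G g : ℝ)) +
      ((∑ E ∈ (tri G).filter (fun E => g ∉ sides E),
        (om D (rem G E) g ^ 2 - om D G g ^ 2)) - (deg G g : ℝ) * om D G g ^ 2) ≤
      wEdge D G g - 2 * ((deg G g : ℝ) * om D G g ^ 2) -
        2 * (om D G g * ∑ f ∈ nbrs G g, om D G f) +
      6 / D ^ 4 * ∑ e ∈ G.erase g, (deg G e : ℝ) * (paths2 G g e : ℝ) ^ 2 := by
    intro g _
    set w := om D G g with hw
    set T := (tri G).filter (fun E => g ∉ sides E) with hT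
    have h1 : ∑ E ∈ T, (om D (rem G E) g ^ 2 - w ^ 2) =
        2 * w * (∑ E ∈ T, (om D (rem G E) g - w)) + ∑ E ∈ T, (om D (rem G E) g - w) ^ 2 := by
      rw [mul_sum, ← sum_add_distrib]
      exact sum_congr rfl fun E _ => by ring
    have h2 := om_drift hD G g
    have h3 := om_sq_jump hD G g
    rw [← hw, ← hT] at h2 h3
    set X := ∑ E ∈ T, (om D (rem G E) g - w) with hX
    set R := 4 * D * w + 4 * (deg G g : ℝ) + X -
        (4 * w + 4 * (deg G g : ℝ) / D - nSq D G g - ∑ f ∈ nbrs G g, om D G f) with hR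
    set Er := ∑ F ∈ triAt G g, ∑ f ∈ sides F, (deg G f : ℝ) with hEr
    have hN : 0 ≤ nSq D G g := sum_nonneg fun F _ => sq_nonneg _
    have h4 : w * R ≤ |w| * (4 * Er / D ^ 2) := by
      refine (le_abs_self _).trans ?_
      rw [abs_mul]
      exact mul_le_mul_of_nonneg_left h2 (abs_nonneg w)
    have h5 : w * (deg G g : ℝ) / D ≤ (deg G g : ℝ) / D * |w| := by
      rw [mul_div_assoc, mul_comm]
      exact mul_le_mul_of_nonneg_left (le_abs_self w) (by positivity)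
    have h6 : -(w * nSq D G g) ≤ |w| * nSq D G g := by
      rw [← neg_mul]
      exact mul_le_mul_of_nonneg_right (neg_le_abs w) hN
    rw [h1, wEdge, ← hw, ← hEr]
    have e : 2 * w * (4 * D * w + 4 * (deg G g : ℝ)) + 2 * w * X =
        2 * (w * R) + 8 * w ^ 2 + 8 * (w * (deg G g : ℝ) / D) - 2 * (w * nSq D G g) -
          2 * (w * ∑ f ∈ nbrs G g, om D G f) := by
      rw [hR]; ring
    have e2 : 2 * (|w| * (4 * Er / D ^ 2)) = 8 * |w| * Er / D ^ 2 := by ring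
    linarith
  have hsum := sum_le_sum hedge
  simp only [sum_add_distrib, sum_sub_distrib, ← mul_sum] at hsum hgen
  rw [potW', hgen]
  simp only [sum_add_distrib, sum_sub_distrib, ← mul_sum] at *
  linarith

lemma abs_xg_le {D M : ℝ} (hD : 0 < D) (hM : 1 ≤ M) (G : Gr n) (g : Finset (Fin n))
    (h : (deg G g : ℝ) ≤ M * D) : |xg D G g| ≤ M := by
  rw [abs_le]
  refine ⟨by linarith [neg_one_le_xg hD.le G g], ?_⟩
  rw [xg, sub_le_iff_le_add, div_le_iff₀ hD]
  nlinarith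

lemma om_sq_le {D : ℝ} (hD : 0 < D) (G : Gr n) (g : Finset (Fin n)) :
    om D G g ^ 2 ≤ 2 * (deg G g : ℝ) * (∑ f ∈ nbrs G g, xg D G f ^ 2) / D ^ 2 := by
  rw [om, div_pow]
  gcongr
  have h := sq_sum_le_card_mul_sum_sq (s := nbrs G g) (f := fun f => xg D G f)
  rw [card_nbrs] at h
  push_cast at h
  exact h

lemma nSq_sq_le (D : ℝ) (G : Gr n) (g : Finset (Fin n)) :
    nSq D G g ^ 2 ≤ 8 * (deg G g : ℝ) * ∑ f ∈ nbrs G g, xg D G f ^ 4 := by
  rw [nSq, sum_nbrs]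
  refine sq_sum_le_card_mul_sum_sq.trans ?_
  rw [← deg_eq, mul_comm (8 : ℝ), mul_assoc]
  refine mul_le_mul_of_nonneg_left ?_ (Nat.cast_nonneg _)
  rw [mul_sum]
  refine sum_le_sum fun F hF => ?_
  have h := sq_sum_le_card_mul_sum_sq (s := others F g) (f := fun f => xg D G f)
  have h' := sq_sum_le_card_mul_sum_sq (s := others F g) (f := fun f => xg D G f ^ 2)
  rw [card_others hF] at h h'
  push_cast at h h'
  have e : ∀ f, (xg D G f ^ 2) ^ 2 = xg D G f ^ 4 := fun f => by ring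
  simp only [e] at h'
  have h2 : (sF D G g F ^ 2) ^ 2 ≤ (2 * ∑ f ∈ others F g, xg D G f ^ 2) ^ 2 :=
    pow_le_pow_left₀ (sq_nonneg _) h 2
  nlinarith

lemma two_abs_mul_le {D : ℝ} (hD : 0 < D) (w k : ℝ) :
    2 * |w| * k ≤ 1 / 100 * D * w ^ 2 + 100 * k ^ 2 / D := by
  have e : 1 / 100 * D * w ^ 2 + 100 * k ^ 2 / D - 2 * |w| * k =
      (D * |w| - 100 * k) ^ 2 / (100 * D) := by
    rw [← sq_abs w]; field_simp; ring
  have : 0 ≤ (D * |w| - 100 * k) ^ 2 / (100 * D) := by positivity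
  linarith

lemma nice_kill {D M : ℝ} (hD : 800 ≤ D) (hM : 1 ≤ M) (G : Gr n) (g : Finset (Fin n))
    (hg : Nice D M G g) :
    (deg G g : ℝ) * om D G g ^ 2 ≤
      102 / 100 * D * om D G g ^ 2 + 25 * 10 ^ 7 * M ^ 5 * D * psiU (xg D G g) := by
  have hD0 : 0 < D := by linarith
  have hd0 : (0 : ℝ) ≤ (deg G g : ℝ) := Nat.cast_nonneg _
  set w := om D G g with hw
  set d := (deg G g : ℝ) with hd
  have hp : 0 ≤ 25 * 10 ^ 7 * M ^ 5 * D * psiU (xg D G g) := by
    have := psiU_nonneg (xg D G g); positivity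
  by_cases hx : xg D G g ≤ 1 / 50
  · have : d ≤ 102 / 100 * D := by
      rw [hd, deg_eq_xg hD0.ne']; nlinarith
    nlinarith [mul_le_mul_of_nonneg_right this (sq_nonneg w)]
  · push Not at hx
    have hψ : 1 ≤ 625 * 10 ^ 5 * psiU (xg D G g) := by
      have hgp := psiU_ge (xg D G g)
      set x := xg D G g with hxdef
      have hx2 : (1 / 50 : ℝ) ^ 2 ≤ x ^ 2 := pow_le_pow_left₀ (by norm_num) hx.le 2
      rcases le_total |x| 1 with h1 | h1
      · nlinarith [mul_le_mul hx2 hx2 (by norm_num) (sq_nonneg x), mm_small h1, sq_nonneg x]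
      · have h2 := mul_le_mul_of_nonneg_left (mm_big h1) (sq_nonneg x)
        nlinarith [sq_abs x, abs_nonneg x]
    have hX : ∑ f ∈ nbrs G g, xg D G f ^ 2 ≤ 2 * d * M ^ 2 := by
      refine (sum_le_sum (g := fun _ => M ^ 2) fun f hf => ?_).trans (le_of_eq ?_)
      · rw [← sq_abs]
        exact pow_le_pow_left₀ (abs_nonneg _) (abs_xg_le hD0 hM G f (hg.2 f hf)) 2
      · rw [sum_const, card_nbrs, nsmul_eq_mul, hd]; push_cast; ring
    have h3 : d * w ^ 2 ≤ 4 * M ^ 5 * D := by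
      calc d * w ^ 2 ≤ d * (2 * d * (2 * d * M ^ 2) / D ^ 2) := by
            refine mul_le_mul_of_nonneg_left ((om_sq_le hD0 G g).trans ?_) hd0
            rw [← hd]
            gcongr
        _ = 4 * d ^ 3 * M ^ 2 / D ^ 2 := by ring
        _ ≤ 4 * (M * D) ^ 3 * M ^ 2 / D ^ 2 := by gcongr; exact hg.1
        _ = 4 * M ^ 5 * D := by field_simp
    have h4 := mul_le_mul_of_nonneg_left hψ (by positivity : (0 : ℝ) ≤ 4 * M ^ 5 * D)
    have h5 : 0 ≤ 102 / 100 * D * w ^ 2 := by positivity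
    linarith

lemma nice_nsq {D M : ℝ} (hD : 800 ≤ D) (hM : 1 ≤ M) (G : Gr n) (g : Finset (Fin n))
    (hg : Nice D M G g) :
    2 * |om D G g| * nSq D G g ≤ 1 / 100 * D * om D G g ^ 2 +
      ∑ f ∈ nbrs G g, 8000 * M ^ 3 * psiU (xg D G f) := by
  have hD0 : 0 < D := by linarith
  have hd0 : (0 : ℝ) ≤ (deg G g : ℝ) := Nat.cast_nonneg _
  set w := om D G g with hw
  set d := (deg G g : ℝ) with hd
  refine (two_abs_mul_le hD0 _ _).trans (add_le_add le_rfl ?_)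
  calc 100 * nSq D G g ^ 2 / D ≤ 100 * (8 * d * ∑ f ∈ nbrs G g, xg D G f ^ 4) / D := by
        gcongr
        exact nSq_sq_le D G g
    _ ≤ 100 * (8 * (M * D) * ∑ f ∈ nbrs G g, 10 * M ^ 2 * psiU (xg D G f)) / D := by
        have h0 : 0 ≤ ∑ f ∈ nbrs G g, xg D G f ^ 4 := sum_nonneg fun f _ => by positivity
        have h1 : ∑ f ∈ nbrs G g, xg D G f ^ 4 ≤
            ∑ f ∈ nbrs G g, 10 * M ^ 2 * psiU (xg D G f) := by
          refine sum_le_sum fun f hf => ?_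
          set x := xg D G f with hxd
          have hgp := psiU_ge x
          have hx : x ^ 2 ≤ M ^ 2 := by
            rw [← sq_abs]
            exact pow_le_pow_left₀ (abs_nonneg _) (abs_xg_le hD0 hM G f (hg.2 f hf)) 2
          have e : x ^ 4 = x ^ 2 * mm x * (1 + x ^ 2) := by rw [mul_assoc, mm_mul]; ring
          have h2 : 0 ≤ x ^ 2 * mm x := mul_nonneg (sq_nonneg x) (mm_nonneg x)
          rw [e]
          calc x ^ 2 * mm x * (1 + x ^ 2) ≤ 5 * psiU x * (2 * M ^ 2) :=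
                mul_le_mul (by linarith) (by linarith [one_le_pow₀ (n := 2) hM]) (by positivity)
                  (by have := psiU_nonneg x; positivity)
            _ = _ := by ring
        gcongr
        exact hg.1
    _ = _ := by rw [mul_sum, mul_sum, sum_div]; exact sum_congr rfl fun f _ => by field_simp; ring

lemma err_sq_le {D E K : ℝ} (hD : 0 < D) (hE0 : 0 ≤ E) (hE : E ≤ K) :
    100 * (4 * E / D ^ 2) ^ 2 / D ≤ 100 * (4 * K / D ^ 2) ^ 2 / D := by
  gcongr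

lemma nice_err {D M : ℝ} (hD : 800 ≤ D) (hM : 1 ≤ M) (G : Gr n) (g : Finset (Fin n))
    (hg : Nice D M G g) :
    8 * |om D G g| * (∑ F ∈ triAt G g, ∑ f ∈ sides F, (deg G f : ℝ)) / D ^ 2 ≤
      1 / 100 * D * om D G g ^ 2 + 14400 * M ^ 4 / D := by
  have hD0 : 0 < D := by linarith
  have hd0 : (0 : ℝ) ≤ (deg G g : ℝ) := Nat.cast_nonneg _
  set w := om D G g with hw
  set d := (deg G g : ℝ) with hd
  set Er := ∑ F ∈ triAt G g, ∑ f ∈ sides F, (deg G f : ℝ) with hEr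
  have hE : Er ≤ 3 * (M * D) * (M * D) := by
    calc Er ≤ ∑ F ∈ triAt G g, 3 * (M * D) := by
          refine sum_le_sum fun F hF => ?_
          rw [← sum_erase_add _ _ (mem_triAt.1 hF).2]
          have h1 : ∑ f ∈ others F g, (deg G f : ℝ) ≤ ∑ f ∈ others F g, M * D :=
            sum_le_sum fun f hf => hg.2 f (by rw [nbrs_eq, mem_biUnion]; exact ⟨F, hF, hf⟩)
          rw [sum_const, card_others hF, nsmul_eq_mul] at h1
          push_cast at h1
          have h2 := hg.1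
          simp only [others] at h1
          linarith
      _ = d * (3 * (M * D)) := by rw [sum_const, nsmul_eq_mul, hd, deg_eq]
      _ ≤ M * D * (3 * (M * D)) := by gcongr; exact hg.1
      _ = _ := by ring
  have hE0 : 0 ≤ Er := sum_nonneg fun F _ => sum_nonneg fun f _ => Nat.cast_nonneg _
  calc 8 * |w| * Er / D ^ 2 = 2 * |w| * (4 * Er / D ^ 2) := by ring
    _ ≤ 1 / 100 * D * w ^ 2 + 100 * (4 * Er / D ^ 2) ^ 2 / D := two_abs_mul_le hD0 _ _
    _ ≤ 1 / 100 * D * w ^ 2 + 100 * (4 * (3 * (M * D) * (M * D)) / D ^ 2) ^ 2 / D :=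
        add_le_add le_rfl (err_sq_le hD0 hE0 hE)
    _ = _ := by field_simp; ring

lemma nice_kills {D M : ℝ} (hD : 800 ≤ D) (hM : 1 ≤ M) (G : Gr n) (g : Finset (Fin n))
    (hg : Nice D M G g) :
    8 / D ^ 2 * (∑ F ∈ triAt G g, (∑ f ∈ others F g, xg D G f ^ 2) *
      (∑ f ∈ others F g, (deg G f : ℝ))) ≤ ∑ f ∈ nbrs G g, 16 * M / D * xg D G f ^ 2 := by
  have hD0 : 0 < D := by linarith
  have hd0 : (0 : ℝ) ≤ (deg G g : ℝ) := Nat.cast_nonneg _
  set w := om D G g with hw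
  set d := (deg G g : ℝ) with hd
  rw [sum_nbrs, mul_sum]
  refine sum_le_sum fun F hF => ?_
  have h1 : ∑ f ∈ others F g, (deg G f : ℝ) ≤ ∑ f ∈ others F g, M * D :=
    sum_le_sum fun f hf => hg.2 f (by rw [nbrs_eq, mem_biUnion]; exact ⟨F, hF, hf⟩)
  rw [sum_const, card_others hF, nsmul_eq_mul] at h1
  push_cast at h1
  have h0 : 0 ≤ ∑ f ∈ others F g, xg D G f ^ 2 := sum_nonneg fun f _ => sq_nonneg _
  calc 8 / D ^ 2 * ((∑ f ∈ others F g, xg D G f ^ 2) * ∑ f ∈ others F g, (deg G f : ℝ))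
      ≤ 8 / D ^ 2 * ((∑ f ∈ others F g, xg D G f ^ 2) * (2 * (M * D))) := by gcongr
    _ = _ := by rw [← mul_sum]; field_simp; ring

/-- The bound at a nice edge. -/
lemma wEdge_nice {D M : ℝ} (hD : 800 ≤ D) (hM : 1 ≤ M) (G : Gr n) (g : Finset (Fin n))
    (hg : Nice D M G g) :
    wEdge D G g ≤ 106 / 100 * D * om D G g ^ 2 + 25 * 10 ^ 7 * M ^ 5 * D * psiU (xg D G g) +
      16000 * M ^ 4 / D +
      ∑ f ∈ nbrs G g, (8000 * M ^ 3 * psiU (xg D G f) + 16 * M / D * xg D G f ^ 2) := by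
  have hD0 : 0 < D := by linarith
  have hd0 : (0 : ℝ) ≤ (deg G g : ℝ) := Nat.cast_nonneg _
  set w := om D G g with hw
  set d := (deg G g : ℝ) with hd
  have hw0 := abs_nonneg w
  have hwsq : |w| ^ 2 = w ^ 2 := sq_abs w
  have hM2 : 1 ≤ M ^ 2 := one_le_pow₀ hM
  -- the kill term
  have t1 := nice_kill hD hM G g hg
  have t2 : 8 * w ^ 2 ≤ 1 / 100 * D * w ^ 2 := by
    gcongr; linarith
  have amgm : ∀ k : ℝ, 2 * |w| * k ≤ 1 / 100 * D * w ^ 2 + 100 * k ^ 2 / D := fun k => two_abs_mul_le hD0 w k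
  have hdM : d / D ≤ M := by rw [div_le_iff₀ hD0]; exact hg.1
  have t3 : 8 * (d / D) * |w| ≤ 1 / 100 * D * w ^ 2 + 1600 * M ^ 4 / D := by
    calc 8 * (d / D) * |w| = 2 * |w| * (4 * (d / D)) := by ring
      _ ≤ 1 / 100 * D * w ^ 2 + 100 * (4 * (d / D)) ^ 2 / D := amgm _
      _ ≤ 1 / 100 * D * w ^ 2 + 100 * (4 * M ^ 2) ^ 2 / D := by
          gcongr
          nlinarith [sq_nonneg (M - 1)]
      _ = _ := by ring
  have t4 := nice_nsq hD hM G g hg
  have t5 := nice_err hD hM G g hg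
  have t6 := nice_kills hD hM G g hg
  rw [← hw, ← hd] at t1
  rw [← hw] at t4 t5
  rw [wEdge, ← hw, ← hd, sum_add_distrib]
  have e : 1600 * M ^ 4 / D + 14400 * M ^ 4 / D = 16000 * M ^ 4 / D := by ring
  linarith

lemma crude_total {D L d w N Er P : ℝ} (hD : 8 ≤ D) (hL : 1 ≤ L) (hd0 : 0 ≤ d)
    (hdL : d ≤ 2 * L) (hw : |w| ≤ 12 * L ^ 2) (hw2 : w ^ 2 ≤ 144 * L ^ 4) (hN : N ≤ 72 * L ^ 3)
    (hN0 : 0 ≤ N) (hEr : Er ≤ 12 * L ^ 2) (hEr0 : 0 ≤ Er) (hP : P ≤ 144 * L ^ 4) (hP0 : 0 ≤ P) :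
    d * w ^ 2 + 8 * w ^ 2 + 8 * (d / D) * |w| + 2 * |w| * N + 8 * |w| * Er / D ^ 2 +
      8 / D ^ 2 * P ≤ 10 ^ 4 * L ^ 7 := by
  have hw0 := abs_nonneg w
  have hD2 : 1 ≤ D ^ 2 := one_le_pow₀ (by linarith)
  have a1 : d * w ^ 2 ≤ 2 * L * (144 * L ^ 4) := mul_le_mul hdL hw2 (sq_nonneg w) (by linarith)
  have a2 : d / D ≤ 2 * L := (div_le_self hd0 (by linarith)).trans hdL
  have a3 : d / D * |w| ≤ 2 * L * (12 * L ^ 2) := mul_le_mul a2 hw hw0 (by linarith)
  have a4 : |w| * N ≤ 12 * L ^ 2 * (72 * L ^ 3) := mul_le_mul hw hN hN0 (by positivity)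
  have a5 : |w| * Er ≤ 12 * L ^ 2 * (12 * L ^ 2) := mul_le_mul hw hEr hEr0 (by positivity)
  have a6 : 8 * |w| * Er / D ^ 2 ≤ 8 * |w| * Er := div_le_self (by positivity) hD2
  have a7 : 8 / D ^ 2 * P ≤ 8 * P := mul_le_mul_of_nonneg_right (div_le_self (by norm_num) hD2) hP0
  have hp : ∀ k : ℕ, k ≤ 7 → L ^ k ≤ L ^ 7 := fun k hk => pow_le_pow_right₀ hL hk
  linarith [hp 3 (by norm_num), hp 4 (by norm_num), hp 5 (by norm_num),
    (by positivity : (0 : ℝ) ≤ L ^ 7)]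

/-- The crude bound. -/
lemma wEdge_crude {D L : ℝ} (hD : 800 ≤ D) (hDL : D ≤ L) (G : Gr n) {g : Finset (Fin n)}
    (hg : g ∈ G) (hdeg : ∀ f ∈ G, (deg G f : ℝ) ≤ 2 * L) : wEdge D G g ≤ 10 ^ 4 * L ^ 7 := by
  have hD0 : 0 < D := by linarith
  have hL0 : 1 ≤ L := by linarith
  set d := (deg G g : ℝ) with hd
  have hdL : d ≤ 2 * L := hdeg g hg
  have hd0 : 0 ≤ d := Nat.cast_nonneg _
  have hx : ∀ f ∈ G, |xg D G f| ≤ 3 * L := by
    intro f hf
    rw [abs_le]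
    refine ⟨by linarith [neg_one_le_xg hD0.le G f], ?_⟩
    rw [xg, sub_le_iff_le_add, div_le_iff₀ hD0]
    nlinarith [hdeg f hf]
  have hoth : ∀ F ∈ triAt G g, ∀ f ∈ others F g, f ∈ G := fun F hF f hf =>
    (mem_tri.1 (mem_triAt.1 hF).1).2 (mem_erase.1 hf).2
  have hw : |om D G g| ≤ 12 * L ^ 2 := by
    rw [om, abs_div, abs_of_pos hD0, div_le_iff₀ hD0]
    refine (abs_sum_le_sum_abs _ _).trans ((sum_le_sum fun f hf => hx f (nbrs_mem hf).1).trans ?_)
    rw [sum_const, card_nbrs, nsmul_eq_mul]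
    push_cast
    rw [← hd]
    have h1 := mul_le_mul_of_nonneg_right hdL (by positivity : (0 : ℝ) ≤ L)
    nlinarith
  have hw2 : om D G g ^ 2 ≤ 144 * L ^ 4 := by
    rw [← sq_abs]
    calc |om D G g| ^ 2 ≤ (12 * L ^ 2) ^ 2 := pow_le_pow_left₀ (abs_nonneg _) hw 2
      _ = _ := by ring
  have hN : nSq D G g ≤ 72 * L ^ 3 := by
    refine (sum_le_sum (g := fun _ => 36 * L ^ 2) fun F hF => ?_).trans ?_
    · rw [← sq_abs]
      have h1 : |sF D G g F| ≤ 6 * L := by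
        refine (abs_sum_le_sum_abs _ _).trans ((sum_le_sum fun f hf => hx f (hoth F hF f hf)).trans ?_)
        rw [sum_const, card_others hF, nsmul_eq_mul]; push_cast; linarith
      calc |sF D G g F| ^ 2 ≤ (6 * L) ^ 2 := pow_le_pow_left₀ (abs_nonneg _) h1 2
        _ = _ := by ring
    · rw [sum_const, nsmul_eq_mul, ← deg_eq, ← hd]
      calc d * (36 * L ^ 2) ≤ 2 * L * (36 * L ^ 2) := by gcongr
        _ = _ := by ring
  have hEr : ∑ F ∈ triAt G g, ∑ f ∈ sides F, (deg G f : ℝ) ≤ 12 * L ^ 2 := by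
    refine (sum_le_sum (g := fun _ => 6 * L) fun F hF => ?_).trans ?_
    · refine (sum_le_sum fun f hf => hdeg f ((mem_tri.1 (mem_triAt.1 hF).1).2 hf)).trans ?_
      rw [sum_const, card_sides (mem_tri.1 (mem_triAt.1 hF).1).1, nsmul_eq_mul]
      push_cast; linarith
    · rw [sum_const, nsmul_eq_mul, ← deg_eq, ← hd]
      calc d * (6 * L) ≤ 2 * L * (6 * L) := by gcongr
        _ = _ := by ring
  have hP : ∑ F ∈ triAt G g, (∑ f ∈ others F g, xg D G f ^ 2) *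
      (∑ f ∈ others F g, (deg G f : ℝ)) ≤ 144 * L ^ 4 := by
    refine (sum_le_sum (g := fun _ => 18 * L ^ 2 * (4 * L)) fun F hF => ?_).trans ?_
    · refine mul_le_mul ?_ ?_ (sum_nonneg fun f _ => Nat.cast_nonneg _) (by positivity)
      · refine (sum_le_sum (g := fun _ => 9 * L ^ 2) fun f hf => ?_).trans ?_
        · rw [← sq_abs]
          calc |xg D G f| ^ 2 ≤ (3 * L) ^ 2 :=
                pow_le_pow_left₀ (abs_nonneg _) (hx f (hoth F hF f hf)) 2
            _ = _ := by ring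
        · rw [sum_const, card_others hF, nsmul_eq_mul]; push_cast; linarith
      · refine (sum_le_sum fun f hf => hdeg f (hoth F hF f hf)).trans ?_
        rw [sum_const, card_others hF, nsmul_eq_mul]; push_cast; linarith
    · rw [sum_const, nsmul_eq_mul, ← deg_eq, ← hd]
      calc d * (18 * L ^ 2 * (4 * L)) ≤ 2 * L * (18 * L ^ 2 * (4 * L)) := by gcongr
        _ = _ := by ring
  have hN0 : 0 ≤ nSq D G g := sum_nonneg fun F _ => sq_nonneg _
  have hEr0 : 0 ≤ ∑ F ∈ triAt G g, ∑ f ∈ sides F, (deg G f : ℝ) :=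
    sum_nonneg fun F _ => sum_nonneg fun f _ => Nat.cast_nonneg _
  have hP0 : 0 ≤ ∑ F ∈ triAt G g, (∑ f ∈ others F g, xg D G f ^ 2) *
      (∑ f ∈ others F g, (deg G f : ℝ)) :=
    sum_nonneg fun F _ => mul_nonneg (sum_nonneg fun f _ => sq_nonneg _)
      (sum_nonneg fun f _ => Nat.cast_nonneg _)
  exact crude_total (by linarith) hL0 hd0 hdL hw hw2 hN hN0 hEr hEr0 hP hP0

lemma sum_paths2 (G : Gr n) {g : Finset (Fin n)} (φ : Finset (Fin n) → ℝ) (hφ : ∀ e, 0 ≤ φ e) :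
    ∑ e ∈ G.erase g, φ e * (paths2 G g e : ℝ) ≤ ∑ f ∈ nbrs G g, ∑ e ∈ nbrs G f, φ e := by
  simp only [paths2, card_filter, Nat.cast_sum, mul_sum]
  rw [sum_comm]
  refine sum_le_sum fun f _ => ?_
  calc ∑ e ∈ G.erase g, φ e * ((if e ∈ nbrs G f then 1 else 0 : ℕ) : ℝ)
      ≤ ∑ e ∈ G, φ e * ((if e ∈ nbrs G f then 1 else 0 : ℕ) : ℝ) :=
        sum_le_sum_of_subset_of_nonneg (erase_subset _ _) fun e _ _ =>
          mul_nonneg (hφ e) (Nat.cast_nonneg _)
    _ = ∑ e ∈ G.filter (fun e => e ∈ nbrs G f), φ e := by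
        rw [sum_filter]; exact sum_congr rfl fun e _ => by split_ifs <;> simp
    _ = _ := sum_congr (by ext e; simp only [mem_filter]; exact ⟨fun h => h.2,
        fun h => ⟨(nbrs_mem h).1, h⟩⟩) fun _ _ => rfl

lemma deg_cube_le {D M L : ℝ} (hM : 0 ≤ M * D) (G : Gr n)
    (hdeg : ∀ f ∈ G, (deg G f : ℝ) ≤ 2 * L) :
    ∑ g ∈ G, (deg G g : ℝ) ^ 3 ≤
      (M * D) ^ 3 * (G.card : ℝ) + 8 * L ^ 3 * ((badSet D M G).card : ℝ) := by
  calc ∑ g ∈ G, (deg G g : ℝ) ^ 3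
      ≤ ∑ g ∈ G, ((M * D) ^ 3 + if M * D < (deg G g : ℝ) then 8 * L ^ 3 else 0) := by
        refine sum_le_sum fun g hg => ?_
        split_ifs with h
        · calc (deg G g : ℝ) ^ 3 ≤ (2 * L) ^ 3 :=
                pow_le_pow_left₀ (Nat.cast_nonneg _) (hdeg g hg) 3
            _ ≤ _ := by nlinarith [pow_nonneg hM 3]
        · rw [add_zero]; exact pow_le_pow_left₀ (Nat.cast_nonneg _) (not_lt.1 h) 3
    _ = _ := by
        rw [sum_add_distrib, sum_const, nsmul_eq_mul, ← sum_filter, sum_const, nsmul_eq_mul,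
          badSet]
        ring

lemma card_not_nice_le {D M L : ℝ} (G : Gr n) (hdeg : ∀ f ∈ G, (deg G f : ℝ) ≤ 2 * L) :
    ∑ g ∈ G, (if Nice D M G g then (0 : ℝ) else 1) ≤ (1 + 4 * L) * ((badSet D M G).card : ℝ) := by
  set b : Finset (Fin n) → ℝ := fun g => if M * D < (deg G g : ℝ) then 1 else 0 with hb
  have hb0 : ∀ g, 0 ≤ b g := fun g => by simp only [hb]; split_ifs <;> norm_num
  have h1 : ∀ g ∈ G, (if Nice D M G g then (0 : ℝ) else 1) ≤ b g + ∑ f ∈ nbrs G g, b f := by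
    intro g _
    have hs : 0 ≤ ∑ f ∈ nbrs G g, b f := sum_nonneg fun f _ => hb0 f
    split_ifs with h
    · linarith [hb0 g]
    · unfold Nice at h
      push Not at h
      by_cases hg : M * D < (deg G g : ℝ)
      · simp only [hb, if_pos hg] at hs ⊢; linarith
      · obtain ⟨f, hf, hf'⟩ := h (not_lt.1 hg)
        have := single_le_sum (fun f _ => hb0 f) hf
        simp only [hb, if_pos hf', if_neg hg] at this ⊢
        linarith
  refine (sum_le_sum h1).trans ?_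
  rw [sum_add_distrib, sum_nbrs_fun]
  have e : ((badSet D M G).card : ℝ) = ∑ g ∈ G, b g := by
    rw [badSet, card_filter, Nat.cast_sum]
    exact sum_congr rfl fun g _ => by simp only [hb]; split_ifs <;> simp
  rw [e, add_mul, one_mul, mul_sum]
  refine add_le_add le_rfl (sum_le_sum fun f hf => ?_)
  have := mul_le_mul_of_nonneg_right (hdeg f hf) (hb0 f)
  linarith

/-- The drift of `potW`. -/
lemma drift_potW {D M L : ℝ} (hD : 10 ^ 4 ≤ D) (hM : 1 ≤ M) (hDL : D ≤ L) (G : Gr n)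
    (hdeg : ∀ f ∈ G, (deg G f : ℝ) ≤ 2 * L) :
    potW' D G + gen (rstep (n := n)) (potW D) G ≤
      106 / 100 * D * potW D G +
      3 * 10 ^ 8 * M ^ 5 * (D * potU D G + (G.card : ℝ) / D) +
      10 ^ 5 * L ^ 8 * ((badSet D M G).card : ℝ) + 12 * L * (quad G : ℝ) := by
  classical
  have hD0 : 0 < D := by linarith
  have hL0 : 0 < L := by linarith
  refine (gen_potW_le hD0 G).trans ?_
  -- the edges
  set nb : Finset (Fin n) → ℝ := fun g => if Nice D M G g then 0 else 1 with hnb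
  set φ : Finset (Fin n) → ℝ := fun f => if (deg G f : ℝ) ≤ M * D then
    8000 * M ^ 3 * psiU (xg D G f) + 16 * M / D * xg D G f ^ 2 else 0 with hφ
  have hφ0 : ∀ f, 0 ≤ φ f := fun f => by
    have := psiU_nonneg (xg D G f)
    simp only [hφ]; split_ifs <;> positivity
  have h1 : ∀ g ∈ G, wEdge D G g ≤ 106 / 100 * D * om D G g ^ 2 +
      25 * 10 ^ 7 * M ^ 5 * D * psiU (xg D G g) + 16000 * M ^ 4 / D + (∑ f ∈ nbrs G g, φ f) +
      10 ^ 4 * L ^ 7 * nb g := by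
    intro g hg
    have := psiU_nonneg (xg D G g)
    by_cases hn : Nice D M G g
    · have h := wEdge_nice (by linarith) hM G g hn
      have e : ∑ f ∈ nbrs G g, φ f =
          ∑ f ∈ nbrs G g, (8000 * M ^ 3 * psiU (xg D G f) + 16 * M / D * xg D G f ^ 2) :=
        sum_congr rfl fun f hf => by simp only [hφ, if_pos (hn.2 f hf)]
      simp only [hnb, if_pos hn, mul_zero, add_zero]
      linarith
    · have h := wEdge_crude (by linarith) hDL G hg hdeg
      have : 0 ≤ ∑ f ∈ nbrs G g, φ f := sum_nonneg fun f _ => hφ0 f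
      simp only [hnb, if_neg hn, mul_one]
      have : 0 ≤ 106 / 100 * D * om D G g ^ 2 + 25 * 10 ^ 7 * M ^ 5 * D * psiU (xg D G g) +
          16000 * M ^ 4 / D := by positivity
      linarith
  have hphi : ∑ g ∈ G, ∑ f ∈ nbrs G g, φ f ≤
      16000 * M ^ 4 * D * potU D G + 32 * M ^ 2 * ∑ g ∈ G, xg D G g ^ 2 := by
    rw [sum_nbrs_fun, potU, mul_sum, mul_sum, ← sum_add_distrib]
    refine sum_le_sum fun f _ => ?_
    have := psiU_nonneg (xg D G f)
    simp only [hφ]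
    split_ifs with h
    · calc 2 * (deg G f : ℝ) * (8000 * M ^ 3 * psiU (xg D G f) + 16 * M / D * xg D G f ^ 2)
          ≤ 2 * (M * D) * (8000 * M ^ 3 * psiU (xg D G f) + 16 * M / D * xg D G f ^ 2) := by gcongr
        _ = _ := by field_simp; ring
    · rw [mul_zero]; positivity
  have hsq : ∑ g ∈ G, xg D G g ^ 2 ≤ D * potU D G + 3 / D * (G.card : ℝ) := by
    refine (sum_le_sum fun g _ => sq_le_psiU (by linarith : 10 ≤ D) (xg D G g)).trans (le_of_eq ?_)
    rw [sum_add_distrib, sum_const, nsmul_eq_mul, ← mul_sum, potU]; ring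
  have hbad := card_not_nice_le (M := M) (D := D) G hdeg
  -- the squared losses
  have hq : ∑ g ∈ G, ∑ e ∈ G.erase g, (deg G e : ℝ) * (paths2 G g e : ℝ) ^ 2 ≤
      4 * (∑ g ∈ G, (deg G g : ℝ) ^ 3) + 2 * L * (quad G : ℝ) := by
    have h2 : ∀ g ∈ G, ∑ e ∈ G.erase g, (deg G e : ℝ) * (paths2 G g e : ℝ) ^ 2 ≤
        (∑ f ∈ nbrs G g, ∑ e ∈ nbrs G f, (deg G e : ℝ)) +
          2 * L * ((∑ e ∈ G.erase g, paths2 G g e * (paths2 G g e - 1) : ℕ) : ℝ) := by
      intro g _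
      have h3 := sum_paths2 G (g := g) (fun e => (deg G e : ℝ)) (fun e => Nat.cast_nonneg _)
      rw [Nat.cast_sum, mul_sum]
      refine le_trans ?_ (add_le_add h3 le_rfl)
      rw [← sum_add_distrib]
      refine sum_le_sum fun e he => ?_
      have hp : ((paths2 G g e * (paths2 G g e - 1) : ℕ) : ℝ) =
          (paths2 G g e : ℝ) ^ 2 - paths2 G g e := by
        rcases Nat.eq_zero_or_pos (paths2 G g e) with h | h
        · simp [h]
        · rw [Nat.cast_mul, Nat.cast_sub h]; push_cast; ring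
      have hd := hdeg e (mem_erase.1 he).2
      have h0 : (0 : ℝ) ≤ (paths2 G g e : ℝ) ^ 2 - paths2 G g e := hp ▸ Nat.cast_nonneg _
      rw [hp]
      have := mul_le_mul_of_nonneg_right hd h0
      linarith
    refine (sum_le_sum h2).trans ?_
    rw [sum_add_distrib, ← mul_sum, ← Nat.cast_sum]
    refine add_le_add ?_ le_rfl
    rw [sum_nbrs_fun]
    calc ∑ f ∈ G, 2 * (deg G f : ℝ) * ∑ e ∈ nbrs G f, (deg G e : ℝ)
        ≤ ∑ f ∈ G, ∑ e ∈ nbrs G f, ((deg G f : ℝ) ^ 2 + (deg G e : ℝ) ^ 2) := by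
          refine sum_le_sum fun f _ => ?_
          rw [mul_sum]
          exact sum_le_sum fun e _ => two_mul_le_add_sq _ _
      _ = _ := by
          simp only [sum_add_distrib]
          rw [sum_nbrs_fun G (fun e => (deg G e : ℝ) ^ 2), ← sum_add_distrib, mul_sum]
          exact sum_congr rfl fun f _ => by
            rw [sum_const, card_nbrs, nsmul_eq_mul]; push_cast; ring
  have hcube := deg_cube_le (M := M) (D := D) (by positivity) G hdeg
  have hsum := sum_le_sum h1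
  simp only [sum_add_distrib, sum_const, nsmul_eq_mul, ← mul_sum] at hsum
  -- numbers
  have hPhi : 0 ≤ potU D G := sum_nonneg fun g _ => psiU_nonneg _
  have hN : (0 : ℝ) ≤ (G.card : ℝ) / D := by positivity
  have hB : (0 : ℝ) ≤ ((badSet D M G).card : ℝ) := Nat.cast_nonneg _
  have hQ : (0 : ℝ) ≤ (quad G : ℝ) := Nat.cast_nonneg _
  have hM24 : M ^ 2 ≤ M ^ 5 := pow_le_pow_right₀ hM (by norm_num)
  have hM45 : M ^ 4 ≤ M ^ 5 := pow_le_pow_right₀ hM (by norm_num)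
  have hM35 : M ^ 3 ≤ M ^ 5 := pow_le_pow_right₀ hM (by norm_num)
  have n1 : 32 * M ^ 2 * ∑ g ∈ G, xg D G g ^ 2 ≤
      32 * M ^ 5 * (D * potU D G + 3 * ((G.card : ℝ) / D)) := by
    calc 32 * M ^ 2 * ∑ g ∈ G, xg D G g ^ 2
        ≤ 32 * M ^ 5 * ∑ g ∈ G, xg D G g ^ 2 := by
          gcongr
      _ ≤ 32 * M ^ 5 * (D * potU D G + 3 / D * (G.card : ℝ)) := by gcongr
      _ = _ := by ring
  have n2 : 16000 * M ^ 4 * (D * potU D G + (G.card : ℝ) / D) ≤
      16000 * M ^ 5 * (D * potU D G + (G.card : ℝ) / D) := by gcongr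
  have n3 : 10 ^ 4 * L ^ 7 * ∑ g ∈ G, nb g ≤ 5 * 10 ^ 4 * L ^ 8 * ((badSet D M G).card : ℝ) := by
    calc 10 ^ 4 * L ^ 7 * ∑ g ∈ G, nb g
        ≤ 10 ^ 4 * L ^ 7 * ((1 + 4 * L) * ((badSet D M G).card : ℝ)) := by gcongr
      _ ≤ 10 ^ 4 * L ^ 7 * ((5 * L) * ((badSet D M G).card : ℝ)) := by gcongr; linarith
      _ = _ := by ring
  have n4 : 6 / D ^ 4 * ∑ g ∈ G, ∑ e ∈ G.erase g, (deg G e : ℝ) * (paths2 G g e : ℝ) ^ 2 ≤
      24 * M ^ 5 * ((G.card : ℝ) / D) + 192 * L ^ 8 * ((badSet D M G).card : ℝ) +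
        12 * L * (quad G : ℝ) := by
    have hD4 : 1 ≤ D ^ 4 := one_le_pow₀ (by linarith)
    have hL38 : L ^ 3 ≤ L ^ 8 := pow_le_pow_right₀ (by linarith) (by norm_num)
    calc 6 / D ^ 4 * ∑ g ∈ G, ∑ e ∈ G.erase g, (deg G e : ℝ) * (paths2 G g e : ℝ) ^ 2
        ≤ 6 / D ^ 4 * (4 * ((M * D) ^ 3 * (G.card : ℝ) + 8 * L ^ 3 * ((badSet D M G).card : ℝ)) +
            2 * L * (quad G : ℝ)) := by gcongr; linarith
      _ = 24 * M ^ 3 * ((G.card : ℝ) / D) + (192 * L ^ 3 * ((badSet D M G).card : ℝ) +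
            12 * L * (quad G : ℝ)) / D ^ 4 := by field_simp; ring
      _ ≤ 24 * M ^ 5 * ((G.card : ℝ) / D) + (192 * L ^ 8 * ((badSet D M G).card : ℝ) +
            12 * L * (quad G : ℝ)) := by
          refine add_le_add (by gcongr) ((div_le_self (by positivity) hD4).trans ?_)
          gcongr
      _ = _ := by ring
  have n5 : 0 ≤ M ^ 5 * (D * potU D G) := by positivity
  have n6 : 0 ≤ M ^ 5 * ((G.card : ℝ) / D) := by positivity
  have n7 : 0 ≤ L ^ 8 * ((badSet D M G).card : ℝ) := by positivity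
  have e1 : (G.card : ℝ) * (16000 * M ^ 4 / D) = 16000 * M ^ 4 * ((G.card : ℝ) / D) := by ring
  simp only [potW, potU] at *
  linarith

end Vale.Agent.P046.Full.Two
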