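import Vale.Agent.P046.Full.Two.DriftU

/-!
P046, phase two: one jump of the neighbour sum `om`.
-/

namespace Vale.Agent.P046.Full.Two

open Finset
open Vale.Agent.P046

variable {n : ℕ}

/-- The sum of the relative errors of the other two edges of `F`. -/
noncomputable def sF (D : ℝ) (G : Gr n) (g F : Finset (Fin n)) : ℝ :=
  ∑ f ∈ others F g, xg D G f

/-- The square term in the drift of `om`. -/
noncomputable def nSq (D : ℝ) (G : Gr n) (g : Finset (Fin n)) : ℝ :=
  ∑ F ∈ triAt G g, sF D G g F ^ 2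

/-- The losses at the neighbours that survive. -/
def qLoss (G : Gr n) (g E : Finset (Fin n)) : ℕ :=
  ∑ F ∈ triAt (rem G E) g, ∑ f ∈ others F g, lost G f E

lemma om_eq (D : ℝ) (G : Gr n) (g : Finset (Fin n)) :
    om D G g = (∑ F ∈ triAt G g, sF D G g F) / D := by
  rw [om, sum_nbrs]; rfl

lemma om_rem (D : ℝ) (G : Gr n) (g E : Finset (Fin n)) :
    om D (rem G E) g - om D G g =
      -((∑ F ∈ killed G g E, sF D G g F) / D) - (qLoss G g E : ℝ) / D ^ 2 := by
  rw [om_eq, om_eq, killed, ← sum_filter_add_sum_filter_not (triAt G g)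
    (fun F => Disjoint (sides F) (sides E)) (fun F => sF D G g F), ← triAt_rem]
  simp only [sF, xg_rem, sum_sub_distrib, qLoss, ← sum_div]
  push_cast
  ring

lemma sum_killed_swap (G : Gr n) (g : Finset (Fin n)) (φ : Finset (Fin n) → ℝ) :
    ∑ E ∈ (tri G).filter (fun E => g ∉ sides E), ∑ F ∈ killed G g E, φ F =
      ∑ F ∈ triAt G g, ((killers G g F).card : ℝ) * φ F := by
  have h : ∀ F, ((killers G g F).card : ℝ) * φ F = ∑ _E ∈ killers G g F, φ F := fun F => by
    rw [sum_const, nsmul_eq_mul]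
  simp only [h]
  refine sum_comm' fun E F => ?_
  simp only [killed, killers, mem_filter]
  tauto

/-- The total loss at one neighbour. -/
lemma sum_lost_nbr {D : ℝ} (hD : D ≠ 0) (G : Gr n) (f : Finset (Fin n)) :
    ∑ E ∈ (tri G).filter (fun E => f ∉ sides E), (lost G f E : ℝ) =
      2 * (D - 1) * (deg G f : ℝ) + D ^ 2 * om D G f := by
  rw [sum_lost_triAt, sum_sub_distrib, sum_const, nsmul_eq_mul, ← deg_eq, ← sum_nbrs G f
    (fun h => (deg G h : ℝ))]
  simp_rw [deg_eq_xg hD G, mul_add, mul_one, sum_add_distrib, ← mul_sum, sum_const, card_nbrs,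
    nsmul_eq_mul]
  push_cast
  rw [deg_eq_xg hD G f, om]
  field_simp
  ring

lemma qLoss_total {D : ℝ} (hD : 0 < D) (G : Gr n) (g : Finset (Fin n)) :
    |(∑ E ∈ (tri G).filter (fun E => g ∉ sides E), (qLoss G g E : ℝ)) -
        ∑ f ∈ nbrs G g, (2 * (D - 1) * (deg G f : ℝ) + D ^ 2 * om D G f)| ≤
      4 * ∑ F ∈ triAt G g, ∑ f ∈ sides F, (deg G f : ℝ) := by
  classical
  set T := (tri G).filter (fun E => g ∉ sides E) with hT
  have h1 : ∑ E ∈ T, (qLoss G g E : ℝ) = ∑ F ∈ triAt G g, ∑ f ∈ others F g,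
      ∑ E ∈ T.filter (fun E => Disjoint (sides F) (sides E)), (lost G f E : ℝ) := by
    simp only [qLoss, Nat.cast_sum, triAt_rem, sum_filter]
    rw [sum_comm]
    refine sum_congr rfl fun F _ => ?_
    rw [sum_comm (s := others F g)]
    exact sum_congr rfl fun E _ => by split_ifs <;> simp
  have h2 : ∑ f ∈ nbrs G g, (2 * (D - 1) * (deg G f : ℝ) + D ^ 2 * om D G f) =
      ∑ F ∈ triAt G g, ∑ f ∈ others F g,
        ∑ E ∈ (tri G).filter (fun E => f ∉ sides E), (lost G f E : ℝ) := by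
    rw [sum_nbrs]
    simp only [sum_lost_nbr hD.ne']
  have h3 : ∀ F ∈ triAt G g, ∀ f ∈ others F g,
      0 ≤ (∑ E ∈ (tri G).filter (fun E => f ∉ sides E), (lost G f E : ℝ)) -
        ∑ E ∈ T.filter (fun E => Disjoint (sides F) (sides E)), (lost G f E : ℝ) ∧
      (∑ E ∈ (tri G).filter (fun E => f ∉ sides E), (lost G f E : ℝ)) -
        ∑ E ∈ T.filter (fun E => Disjoint (sides F) (sides E)), (lost G f E : ℝ) ≤
        2 * ∑ h ∈ sides F, (deg G h : ℝ) := by
    intro F hF f hf
    have hfF : f ∈ sides F := (mem_erase.1 hf).2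
    have hgF : g ∈ sides F := (mem_triAt.1 hF).2
    have hsub : T.filter (fun E => Disjoint (sides F) (sides E)) ⊆
        (tri G).filter (fun E => f ∉ sides E) := by
      intro E hE
      simp only [hT, mem_filter] at hE ⊢
      exact ⟨hE.1.1, fun h => disjoint_left.1 hE.2 hfF h⟩
    rw [← sum_sdiff hsub, add_sub_cancel_right]
    refine ⟨sum_nonneg fun E _ => Nat.cast_nonneg _, ?_⟩
    have hcard : (((tri G).filter (fun E => f ∉ sides E)) \
        T.filter (fun E => Disjoint (sides F) (sides E))).card ≤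
        ∑ h ∈ sides F, deg G h := by
      refine le_trans (card_le_card ?_) card_biUnion_le
      intro E hE
      simp only [hT, mem_sdiff, mem_filter, mem_biUnion, not_and, not_disjoint_iff] at hE ⊢
      by_cases hgE : g ∈ sides E
      · exact ⟨g, hgF, hE.1.1, hgE⟩
      · obtain ⟨h, hh1, hh2⟩ := hE.2 ⟨hE.1.1, hgE⟩
        exact ⟨h, hh1, hE.1.1, hh2⟩
    refine (sum_le_sum (g := fun _ => (2 : ℝ)) fun E hE => ?_).trans ?_
    · obtain ⟨hEt, hfE⟩ := mem_filter.1 (mem_sdiff.1 hE).1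
      exact_mod_cast lost_le_two hEt hfE
    · rw [sum_const, nsmul_eq_mul, mul_comm]
      exact mul_le_mul_of_nonneg_left (by exact_mod_cast hcard) (by norm_num)
  rw [h1, h2, abs_sub_comm, ← sum_sub_distrib]
  simp only [← sum_sub_distrib]
  rw [abs_of_nonneg (sum_nonneg fun F hF => sum_nonneg fun f hf => (h3 F hF f hf).1), mul_sum]
  refine sum_le_sum fun F hF => (sum_le_sum fun f hf => (h3 F hF f hf).2).trans (le_of_eq ?_)
  rw [sum_const, card_others hF]
  ring

/-- The drift of `om`, time included. -/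
lemma om_drift {D : ℝ} (hD : 0 < D) (G : Gr n) (g : Finset (Fin n)) :
    |4 * D * om D G g + 4 * (deg G g : ℝ) +
        (∑ E ∈ (tri G).filter (fun E => g ∉ sides E), (om D (rem G E) g - om D G g)) -
        (4 * om D G g + 4 * (deg G g : ℝ) / D - nSq D G g - ∑ f ∈ nbrs G g, om D G f)| ≤
      4 * (∑ F ∈ triAt G g, ∑ f ∈ sides F, (deg G f : ℝ)) / D ^ 2 := by
  set T := (tri G).filter (fun E => g ∉ sides E) with hT
  set Q := ∑ E ∈ T, (qLoss G g E : ℝ) with hQ
  have hS : ∑ f ∈ nbrs G g, xg D G f = D * om D G g := by rw [om]; field_simp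
  have h1 : ∑ E ∈ T, (om D (rem G E) g - om D G g) =
      -((2 * D - 2) * om D G g + nSq D G g) - Q / D ^ 2 := by
    simp only [om_rem, sum_sub_distrib, sum_neg_distrib, ← sum_div, hT, sum_killed_swap, hQ]
    have h : ∀ F ∈ triAt G g, ((killers G g F).card : ℝ) * sF D G g F =
        (2 * D - 2) * sF D G g F + D * sF D G g F ^ 2 := by
      intro F hF
      rw [card_killers hF]
      simp_rw [deg_eq_xg hD.ne', mul_add, mul_one, sum_add_distrib, ← mul_sum, sum_const,
        card_others hF, sF]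
      simp; ring
    rw [sum_congr rfl h, sum_add_distrib, ← mul_sum, ← mul_sum, om_eq, nSq]
    field_simp
  have h2 : ∑ f ∈ nbrs G g, (2 * (D - 1) * (deg G f : ℝ) + D ^ 2 * om D G f) =
      2 * (D - 1) * D * (2 * (deg G g : ℝ) + D * om D G g) +
        D ^ 2 * ∑ f ∈ nbrs G g, om D G f := by
    rw [sum_add_distrib, ← mul_sum, ← mul_sum, ← hS]
    simp_rw [deg_eq_xg hD.ne' G, mul_add, mul_one, sum_add_distrib, sum_const, ← mul_sum, card_nbrs,
      nsmul_eq_mul]
    push_cast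
    rw [deg_eq_xg hD.ne' G g]
    ring
  have h3 := qLoss_total hD G g
  rw [← hT, ← hQ] at h3
  rw [h1]
  have e : 4 * D * om D G g + 4 * (deg G g : ℝ) +
        (-((2 * D - 2) * om D G g + nSq D G g) - Q / D ^ 2) -
        (4 * om D G g + 4 * (deg G g : ℝ) / D - nSq D G g - ∑ f ∈ nbrs G g, om D G f) =
      -((Q - ∑ f ∈ nbrs G g, (2 * (D - 1) * (deg G f : ℝ) + D ^ 2 * om D G f)) / D ^ 2) := by
    rw [h2]; field_simp; ring
  rw [e, abs_neg, abs_div, abs_of_pos (by positivity : (0 : ℝ) < D ^ 2)]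
  gcongr

lemma qLoss_le (G : Gr n) {g E : Finset (Fin n)} :
    qLoss G g E ≤ ∑ e ∈ sides E, paths2 G g e := by
  calc qLoss G g E ≤ ∑ F ∈ triAt (rem G E) g, ∑ f ∈ others F g,
        ((sides E).filter (fun e => e ∈ nbrs G f)).card := by
        refine sum_le_sum fun F hF => sum_le_sum fun f hf => lost_le_sides fun h => ?_
        rw [triAt_rem, mem_filter] at hF
        exact disjoint_left.1 hF.2 (mem_erase.1 hf).2 h
    _ ≤ ∑ F ∈ triAt G g, ∑ f ∈ others F g,
        ((sides E).filter (fun e => e ∈ nbrs G f)).card := by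
        rw [triAt_rem]; exact sum_le_sum_of_subset (filter_subset _ _)
    _ = ∑ e ∈ sides E, paths2 G g e := by
        rw [← sum_nbrs G g (fun f => ((sides E).filter (fun e => e ∈ nbrs G f)).card)]
        simp only [paths2, card_filter]
        exact sum_comm

/-- The square of one jump, summed. -/
lemma om_sq_jump {D : ℝ} (hD : 0 < D) (G : Gr n) (g : Finset (Fin n)) :
    ∑ E ∈ (tri G).filter (fun E => g ∉ sides E), (om D (rem G E) g - om D G g) ^ 2 ≤
      8 / D ^ 2 * (∑ F ∈ triAt G g, (∑ f ∈ others F g, xg D G f ^ 2) *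
        (∑ f ∈ others F g, (deg G f : ℝ))) +
      6 / D ^ 4 * ∑ e ∈ G.erase g, (deg G e : ℝ) * (paths2 G g e : ℝ) ^ 2 := by
  set T := (tri G).filter (fun E => g ∉ sides E) with hT
  have h1 : ∀ E ∈ T, (om D (rem G E) g - om D G g) ^ 2 ≤
      4 / D ^ 2 * (∑ F ∈ killed G g E, sF D G g F ^ 2) +
        6 / D ^ 4 * ∑ e ∈ sides E, (paths2 G g e : ℝ) ^ 2 := by
    intro E hE
    obtain ⟨hEt, hgE⟩ := mem_filter.1 hE
    have hP := sq_sum_le_card_mul_sum_sq (s := killed G g E) (f := fun F => sF D G g F)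
    have hk : ((killed G g E).card : ℝ) ≤ 2 := by exact_mod_cast card_killed_le hEt hgE
    have h0 : 0 ≤ ∑ F ∈ killed G g E, sF D G g F ^ 2 := sum_nonneg fun F _ => sq_nonneg _
    have hQ := sq_sum_le_card_mul_sum_sq (s := sides E) (f := fun e => (paths2 G g e : ℝ))
    rw [card_sides (mem_tri.1 hEt).1] at hQ
    have hq : (qLoss G g E : ℝ) ^ 2 ≤ 3 * ∑ e ∈ sides E, (paths2 G g e : ℝ) ^ 2 := by
      have hle : (qLoss G g E : ℝ) ≤ ∑ e ∈ sides E, (paths2 G g e : ℝ) := by
        rw [← Nat.cast_sum]; exact Nat.cast_le.2 (qLoss_le G)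
      refine le_trans (pow_le_pow_left₀ (Nat.cast_nonneg _) hle 2) ?_
      simpa using hQ
    have hp : (∑ F ∈ killed G g E, sF D G g F) ^ 2 ≤ 2 * ∑ F ∈ killed G g E, sF D G g F ^ 2 :=
      hP.trans (mul_le_mul_of_nonneg_right hk h0)
    rw [om_rem]
    calc (-((∑ F ∈ killed G g E, sF D G g F) / D) - (qLoss G g E : ℝ) / D ^ 2) ^ 2
        ≤ 2 * (∑ F ∈ killed G g E, sF D G g F) ^ 2 / D ^ 2 + 2 * (qLoss G g E : ℝ) ^ 2 / D ^ 4 := by
          have e1 : (∑ F ∈ killed G g E, sF D G g F) ^ 2 / D ^ 2 =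
              ((∑ F ∈ killed G g E, sF D G g F) / D) ^ 2 := by ring
          have e2 : (qLoss G g E : ℝ) ^ 2 / D ^ 4 = ((qLoss G g E : ℝ) / D ^ 2) ^ 2 := by ring
          rw [mul_div_assoc, mul_div_assoc, e1, e2]
          nlinarith [sq_nonneg ((∑ F ∈ killed G g E, sF D G g F) / D - (qLoss G g E : ℝ) / D ^ 2)]
      _ ≤ 2 * (2 * ∑ F ∈ killed G g E, sF D G g F ^ 2) / D ^ 2 +
          2 * (3 * ∑ e ∈ sides E, (paths2 G g e : ℝ) ^ 2) / D ^ 4 := by gcongr
      _ = _ := by ring
  refine (sum_le_sum h1).trans ?_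
  rw [sum_add_distrib, ← mul_sum, ← mul_sum, hT, sum_killed_swap]
  refine add_le_add ?_ ?_
  · rw [mul_sum, mul_sum]
    refine sum_le_sum fun F hF => ?_
    have h2 : sF D G g F ^ 2 ≤ 2 * ∑ f ∈ others F g, xg D G f ^ 2 := by
      have h := sq_sum_le_card_mul_sum_sq (s := others F g) (f := fun f => xg D G f)
      rw [card_others hF] at h
      exact_mod_cast h
    have h3 : ((killers G g F).card : ℝ) ≤ ∑ f ∈ others F g, (deg G f : ℝ) := by
      rw [card_killers hF]; linarith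
    have h0 : (0 : ℝ) ≤ ∑ f ∈ others F g, (deg G f : ℝ) := sum_nonneg fun f _ => Nat.cast_nonneg _
    calc 4 / D ^ 2 * (((killers G g F).card : ℝ) * sF D G g F ^ 2)
        ≤ 4 / D ^ 2 * ((∑ f ∈ others F g, (deg G f : ℝ)) *
            (2 * ∑ f ∈ others F g, xg D G f ^ 2)) := by gcongr
      _ = _ := by ring
  · refine mul_le_mul_of_nonneg_left ?_ (by positivity)
    rw [sum_filter]
    calc ∑ E ∈ tri G, (if g ∉ sides E then ∑ e ∈ sides E, (paths2 G g e : ℝ) ^ 2 else 0)
        ≤ ∑ E ∈ tri G, ∑ e ∈ sides E, if e = g then 0 else (paths2 G g e : ℝ) ^ 2 := by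
          refine sum_le_sum fun E _ => ?_
          split_ifs with h
          · exact sum_nonneg fun e _ => by split_ifs <;> positivity
          · exact le_of_eq (sum_congr rfl fun e he => by rw [if_neg (fun (h' : e = g) => h (by rw [← h']; exact he))])
      _ = ∑ e ∈ G, deg G e • (if e = g then 0 else (paths2 G g e : ℝ) ^ 2) :=
          sum_tri_sides G _
      _ = ∑ e ∈ G.erase g, (deg G e : ℝ) * (paths2 G g e : ℝ) ^ 2 := by
          rw [← filter_ne' G g, sum_filter]
          exact sum_congr rfl fun e _ => by by_cases h : e = g <;> simp [h]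

end Vale.Agent.P046.Full.Two
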